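import Vale.Agent.P040.H105.Tw

/-!
# The doubled sub-star is a simple closed curve
-/

namespace Vale.Agent.P040.Pst

open Topo

variable {ι : Type*} {pos : ι → ℝ}

/-- the pieces of a closed path, the first piece is in the lower page -/
def cpcs (L : List ℝ) : List (Bool × ℝ × ℝ) := pcs false (L ++ [L.headI])

lemma dbl_cons (ε : ℝ) (q : ι × List ℝ) (T : List (ι × List ℝ)) :
    dbl ε (q :: T) = sh (-ε) q.2 ++ ((sh ε q.2).reverse ++ dbl ε T) := by
  simp [dbl]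

lemma dbl_nil (ε : ℝ) : dbl ε ([] : List (ι × List ℝ)) = [] := rfl

lemma dbl_append (ε : ℝ) (S T : List (ι × List ℝ)) : dbl ε (S ++ T) = dbl ε S ++ dbl ε T := by
  simp [dbl]

lemma mem_dbl {ε : ℝ} {T : List (ι × List ℝ)} {p : ℝ} (h : p ∈ dbl ε T) :
    ∃ q ∈ T, ∃ a ∈ q.2, ∃ σ, |σ| = |ε| ∧ p = a + σ := by
  obtain ⟨q, hq, hp⟩ := List.mem_flatMap.1 h
  rcases List.mem_append.1 hp with hp | hp
  · obtain ⟨a, ha, σ, hσ, e⟩ := mem_sh hp
    exact ⟨q, hq, a, ha, σ, by rwa [abs_neg] at hσ, e⟩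
  · obtain ⟨a, ha, σ, hσ, e⟩ := mem_sh (List.mem_reverse.1 hp)
    exact ⟨q, hq, a, ha, σ, hσ, e⟩

lemma dbl_length_even (ε : ℝ) (T : List (ι × List ℝ)) : Even (dbl ε T).length := by
  induction T with
  | nil => simp [dbl]
  | cons q T ih =>
    rw [dbl_cons]
    simp only [List.length_append, List.length_reverse, sh_length]
    rw [← add_assoc]
    exact Even.add (by exact ⟨_, rfl⟩) ih

lemma dbl_headI {ε : ℝ} {q : ι × List ℝ} {T : List (ι × List ℝ)} (hq : q.2 ≠ []) :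
    (dbl ε (q :: T)).headI = q.2.headI - ε := by
  obtain ⟨a, t, h⟩ := List.exists_cons_of_ne_nil hq
  rw [dbl_cons, h]
  simp [sub_eq_add_neg]

lemma pts_sublist {S T : List (ι × List ℝ)} (h : T.Sublist S) : (pts T).Sublist (pts S) := by
  induction h with
  | slnil => exact List.Sublist.refl _
  | cons q h ih =>
    simp only [pts, List.flatMap_cons]
    exact ih.trans (List.sublist_append_right _ _)
  | cons_cons q h ih =>
    simp only [pts, List.flatMap_cons]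
    exact List.Sublist.append (List.Sublist.refl _) ih

/-- the points of the doubled star are distinct -/
theorem dbl_nodup {ε : ℝ} {T : List (ι × List ℝ)} (hn : (pts T).Nodup) (hε : Sepd ε (pts T))
    (h0 : 0 < ε) : (dbl ε T).Nodup := by
  induction T with
  | nil => simp [dbl]
  | cons q T ih =>
    have hp : pts (q :: T) = q.2 ++ pts T := by simp [pts]
    rw [hp] at hn hε
    obtain ⟨n1, n2, n3⟩ := List.nodup_append'.1 hn
    have ha : |ε| = ε := abs_of_pos h0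
    have ha' : |-ε| = ε := by rw [abs_neg, ha]
    have s1 : Sepd |ε| q.2 := by rw [ha]; exact hε.mono fun p hp => List.mem_append_left _ hp
    have s2 : Sepd |-ε| q.2 := by rw [ha']; exact hε.mono fun p hp => List.mem_append_left _ hp
    have key : ∀ {p}, p ∈ dbl ε T → ∀ {a σ}, a ∈ q.2 → |σ| = ε → p ≠ a + σ := by
      intro p hp a σ hm hσ e
      obtain ⟨q', hq', b, hb, τ, hτ, e'⟩ := mem_dbl hp
      have hbT : b ∈ pts T := List.mem_flatMap.2 ⟨q', hq', hb⟩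
      refine Sepd.ne hε (List.mem_append_left _ hm) (List.mem_append_right _ hbT) ?_ hσ.le
        (hτ.trans ha).le (e.symm.trans e')
      rintro rfl
      exact n3 hm hbT
    rw [dbl_cons]
    refine List.nodup_append'.2 ⟨sh_nodup s2 n1, List.nodup_append'.2
      ⟨List.nodup_reverse.2 (sh_nodup s1 n1), ih n2 (hε.mono fun p hp =>
        List.mem_append_right _ hp), ?_⟩, ?_⟩
    · intro p hp hp'
      obtain ⟨a, h1, σ, h2, h3⟩ := mem_sh (List.mem_reverse.1 hp)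
      exact key hp' h1 (h2.trans ha) h3
    · intro p hp hp'
      rcases List.mem_append.1 hp' with hp' | hp'
      · exact sh_disj_neg s1 (by rw [ha]; exact h0) n1 (List.mem_reverse.1 hp') hp
      · obtain ⟨a, h1, σ, h2, h3⟩ := mem_sh hp
        exact key hp' h1 (h2.trans ha') h3

/-- between the two copies of a point there is no point of the doubled star -/
lemma dbl_gap {ε : ℝ} {S T : List (ι × List ℝ)} (hε : Sepd ε (pts S)) (h0 : 0 < ε)
    (hT : ∀ q ∈ T, q ∈ S) {a p : ℝ} (ha : a ∈ pts S) (hp : p ∈ dbl ε T) :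
    ¬ (a - ε < p ∧ p < a + ε) := by
  rintro ⟨h1, h2⟩
  obtain ⟨q, hq, b, hb, σ, hσ, rfl⟩ := mem_dbl hp
  have hbS : b ∈ pts S := mem_pts_of (hT q hq) hb
  rw [abs_of_pos h0] at hσ
  have h3 := abs_le.1 hσ.le
  rcases lt_trichotomy a b with h | h | h
  · have := hε.lt ha hbS h
    linarith
  · subst h
    have h4 : |σ| < ε := abs_lt.2 ⟨by linarith, by linarith⟩
    linarith
  · have := hε.lt hbS ha h
    linarith

/-! ### the pieces of the doubled star -/

/-- the piece at the centre after the arm `q` (next point `h` after the last arm) -/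
def Jn (ε : ℝ) (T : List (ι × List ℝ)) (h : ℝ) (p r : ℝ) : Prop :=
  ∃ T₁ q T₂, T = T₁ ++ q :: T₂ ∧ p = q.2.headI + ε ∧
    ((T₂ = [] ∧ r = h) ∨ ∃ q' T₃, T₂ = q' :: T₃ ∧ r = q'.2.headI - ε)

lemma mem_pcs_dbl {ε : ℝ} {T : List (ι × List ℝ)} (hT : ∀ q ∈ T, ∃ l, q.2 = l ++ [pos q.1])
    (h : ℝ) {c : Bool} {p r : ℝ} (hm : (c, p, r) ∈ pcs false (dbl ε T ++ [h])) :
    (∃ q ∈ T, ∃ a b σ, ((c, a, b) ∈ pcs false q.2 ∨ (c, b, a) ∈ pcs false q.2) ∧ |σ| = |ε| ∧
      p = a + σ ∧ r = b - σ) ∨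
    (∃ q ∈ T, ∃ l, q.2 = l ++ [pos q.1] ∧ c = fl l.length false ∧ ∃ σ, |σ| = |ε| ∧
      p = pos q.1 + σ ∧ r = pos q.1 - σ) ∨
    (c = true ∧ Jn ε T h p r) := by
  induction T with
  | nil => simp [dbl] at hm
  | cons q T ih =>
    obtain ⟨l, hl⟩ := hT q (by simp)
    have hne : q.2 ≠ [] := by rw [hl]; simp
    obtain ⟨v1, v', hv⟩ := List.exists_cons_of_ne_nil hne
    have hT' : ∀ q ∈ T, ∃ l, q.2 = l ++ [pos q.1] := fun q hq => hT q (by simp [hq])
    obtain ⟨u1, u', hu⟩ := List.exists_cons_of_ne_nil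
      (show dbl ε T ++ [h] ≠ [] by simp)
    have e : dbl ε (q :: T) ++ [h] = rr (-ε) q.2 (dbl ε T ++ [h]) := by
      rw [dbl_cons, rr, neg_neg]; simp
    rw [e] at hm
    rcases mem_pcs_rr hl hv hu hm with ⟨a, b, σ, h1, h2, h3, h4⟩ | ⟨h1, σ, h2, h3, h4⟩ |
      ⟨h1, h2, h3⟩ | hm
    · exact Or.inl ⟨q, by simp, a, b, σ, h1, by rw [h2, abs_neg], h3, h4⟩
    · exact Or.inr (Or.inl ⟨q, by simp, l, hl, h1, σ, by rw [h2, abs_neg], h3, h4⟩)
    · refine Or.inr (Or.inr ⟨h1, [], q, T, rfl, ?_, ?_⟩)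
      · rw [h2, hv]; simp
      · cases T with
        | nil =>
          simp only [dbl_nil, List.nil_append, List.cons.injEq] at hu
          exact Or.inl ⟨rfl, h3.trans hu.1.symm⟩
        | cons q' T' =>
          obtain ⟨l', hl'⟩ := hT' q' (by simp)
          have hne' : q'.2 ≠ [] := by rw [hl']; simp
          refine Or.inr ⟨q', T', rfl, ?_⟩
          obtain ⟨w1, w', hw⟩ := List.exists_cons_of_ne_nil hne'
          rw [dbl_cons, hw] at hu
          simp only [sh_cons, List.cons_append, List.cons.injEq] at hu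
          rw [h3, ← hu.1, hw]
          simp [sub_eq_add_neg]
    · rcases ih hT' hm with ⟨q', hq', hh⟩ | ⟨q', hq', hh⟩ | ⟨hc, T₁, q', T₂, hh⟩
      · exact Or.inl ⟨q', by simp [hq'], hh⟩
      · exact Or.inr (Or.inl ⟨q', by simp [hq'], hh⟩)
      · refine Or.inr (Or.inr ⟨hc, q :: T₁, q', T₂, ?_, hh.2⟩)
        rw [hh.1]; rfl

/-! ### cyclic order of a sub-list -/

lemma Cyc.append_comm {m m' : List ℝ} (h : Cyc (m ++ m')) : Cyc (m' ++ m) := by
  obtain ⟨l₁, l₂, h1, h2⟩ := h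
  rcases List.append_eq_append_iff.1 h1 with ⟨c, hc, hc'⟩ | ⟨c, hc, hc'⟩
  · refine ⟨l₁ ++ m, c, ?_, ?_⟩
    · rw [hc']; simp
    · rw [hc] at h2; simpa using h2
  · refine ⟨c, m' ++ l₂, ?_, ?_⟩
    · rw [hc]; simp
    · rw [hc'] at h2; simpa using h2

lemma Cyc.sublist {f g : List ℝ} (h : Cyc f) (hs : g.Sublist f) : Cyc g := by
  obtain ⟨l₁, l₂, rfl, h2⟩ := h
  obtain ⟨g₂, g₁, rfl, h3, h4⟩ := List.sublist_append_iff.1 hs
  exact ⟨g₁, g₂, rfl, h2.sublist (List.Sublist.append h4 h3)⟩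

/-- the position of a pair of cyclically consecutive first points -/
def Adj (F : List ℝ) (a b : ℝ) : Prop :=
  (a < b ∧ ∀ f ∈ F, f ≤ a ∨ b ≤ f) ∨ (b ≤ a ∧ ∀ f ∈ F, b ≤ f ∧ f ≤ a)

lemma Cyc.adj' {a b : ℝ} {r F : List ℝ} (h : Cyc (a :: b :: r)) (hF : ∀ f ∈ F, f ∈ a :: b :: r) :
    Adj F a b := by
  rcases h.adj with ⟨h1, h2⟩ | ⟨h1, h2⟩
  · refine Or.inl ⟨h1, fun f hf => ?_⟩
    have := hF f hf
    simp only [List.mem_cons] at this
    rcases this with rfl | rfl | hf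
    · left; exact le_rfl
    · right; exact le_rfl
    · rcases h2 f hf with h | h
      · left; exact h.le
      · right; exact h.le
  · refine Or.inr ⟨h1.le, fun f hf => ?_⟩
    have := hF f hf
    simp only [List.mem_cons] at this
    rcases this with rfl | rfl | hf
    · exact ⟨h1.le, le_rfl⟩
    · exact ⟨le_rfl, h1.le⟩
    · exact ⟨(h2 f hf).1.le, (h2 f hf).2.le⟩

lemma jn_adj {ε : ℝ} {T : List (ι × List ℝ)} (hc : Cyc (fsts T)) {p r : ℝ}
    (h : Jn ε T ((fsts T).headI - ε) p r) :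
    ∃ a b, a ∈ fsts T ∧ b ∈ fsts T ∧ p = a + ε ∧ r = b - ε ∧ Adj (fsts T) a b := by
  obtain ⟨T₁, q, T₂, rfl, hp, hr⟩ := h
  have e : fsts (T₁ ++ q :: T₂) = fsts T₁ ++ q.2.headI :: fsts T₂ := by simp [fsts]
  rw [e] at hc hr ⊢
  rcases hr with ⟨rfl, hr⟩ | ⟨q', T₃, rfl, hr⟩
  · cases h1 : fsts T₁ with
    | nil =>
      rw [h1] at hr
      refine ⟨q.2.headI, q.2.headI, by simp, by simp, hp, by simpa using hr, ?_⟩
      refine Or.inr ⟨le_rfl, fun f hf => ?_⟩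
      simp only [fsts, List.map_nil, List.nil_append, List.mem_cons, List.not_mem_nil,
        or_false] at hf
      rw [hf]; exact ⟨le_rfl, le_rfl⟩
    | cons b F =>
      rw [h1] at hr hc
      refine ⟨q.2.headI, b, by simp, by simp, hp, by simpa using hr, ?_⟩
      have h2 := hc.append_comm
      simp only [fsts, List.map_nil, List.cons_append, List.nil_append] at h2
      refine h2.adj' fun f hf => ?_
      simp only [fsts, List.map_nil, List.cons_append, List.mem_append, List.mem_cons,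
        List.not_mem_nil, or_false] at hf ⊢
      tauto
  · refine ⟨q.2.headI, q'.2.headI, by simp, by simp [fsts], hp, hr, ?_⟩
    have h2 := hc.append_comm
    simp only [fsts, List.map_cons, List.cons_append] at h2
    refine h2.adj' fun f hf => ?_
    simp only [fsts, List.map_cons, List.mem_append, List.mem_cons] at hf ⊢
    tauto

lemma IsStar.leaf_mem' {S : List (ι × List ℝ)} (hS : IsStar pos S) {q : ι × List ℝ}
    (hq : q ∈ S) : pos q.1 ∈ pts S := by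
  obtain ⟨l, hl⟩ := hS.ends q hq
  exact mem_pts_of hq (by rw [hl]; simp)

/-- **G2a.** The doubled sub-star: its pieces in the same page do not interleave. -/
theorem IsStar.dbl_nc {S T : List (ι × List ℝ)} (hS : IsStar pos S) (hT : T.Sublist S)
    {ε : ℝ} (hε : Sepd ε (pts S)) (h0 : 0 < ε) {c : Bool} {a b a' b' : ℝ}
    (h : (c, a, b) ∈ cpcs (dbl ε T)) (h' : (c, a', b') ∈ cpcs (dbl ε T)) :
    ¬ Topo.Inter a b a' b' := by
  have hTS : ∀ q ∈ T, q ∈ S := fun q hq => hT.subset hq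
  have hends : ∀ q ∈ T, ∃ l, q.2 = l ++ [pos q.1] := fun q hq => hS.ends q (hTS q hq)
  have hε0 : |ε| = ε := abs_of_pos h0
  have neg : ∀ {σ : ℝ}, |σ| ≤ ε → |-σ| ≤ ε := by intro σ h; rwa [abs_neg]
  have hcyc : Cyc (fsts T) := Cyc.sublist (show Cyc (fsts S) from hS.cyc)
    (List.Sublist.map _ hT)
  have hfs : ∀ f ∈ fsts T, f ∈ fsts S := fun f hf => (List.Sublist.map _ hT).subset hf
  rcases T with _ | ⟨q0, T'⟩
  · simp [cpcs, dbl] at h
  have hne0 : q0.2 ≠ [] := hS.arm_ne_nil (hTS q0 (by simp))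
  have hh : (dbl ε (q0 :: T')).headI = (fsts (q0 :: T')).headI - ε := by
    rw [dbl_headI hne0]; simp [fsts]
  have cls : ∀ {c p r}, (c, p, r) ∈ cpcs (dbl ε (q0 :: T')) →
      (∃ a b σ, Pc S c a b ∧ |σ| ≤ ε ∧ p = a + σ ∧ r = b - σ) ∨
      (∃ q ∈ S, ∃ l, q.2 = l ++ [pos q.1] ∧ c = fl l.length false ∧ ∃ σ, |σ| ≤ ε ∧
        p = pos q.1 + σ ∧ r = pos q.1 - σ) ∨
      (c = true ∧ ∃ a b, a ∈ fsts (q0 :: T') ∧ b ∈ fsts (q0 :: T') ∧ p = a + ε ∧ r = b - ε ∧
        Adj (fsts (q0 :: T')) a b) := by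
    intro c p r hm
    rw [cpcs, hh] at hm
    rcases mem_pcs_dbl hends _ hm with ⟨q, hq, a, b, σ, h1, h2, h3, h4⟩ |
      ⟨q, hq, l, hl, h1, σ, h2, h3, h4⟩ | ⟨h1, h2⟩
    · refine Or.inl ⟨a, b, σ, ?_, (h2.trans hε0).le, h3, h4⟩
      exact h1.imp (fun h => mem_allp.2 ⟨q, hTS q hq, h⟩) (fun h => mem_allp.2 ⟨q, hTS q hq, h⟩)
    · exact Or.inr (Or.inl ⟨q, hTS q hq, l, hl, h1, σ, (h2.trans hε0).le, h3, h4⟩)
    · exact Or.inr (Or.inr ⟨h1, jn_adj hcyc h2⟩)
  have AA : ∀ {c a b a' b' σ τ}, Pc S c a b → Pc S c a' b' → |σ| ≤ ε → |τ| ≤ ε →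
      ¬ Topo.Inter (a + σ) (b - σ) (a' + τ) (b' - τ) := by
    intro c a b a' b' σ τ h h' hσ hτ
    have hm := IsStar.pc_mem h
    have hm' := IsStar.pc_mem h'
    by_cases hx : a = a' ∨ a = b' ∨ b = a' ∨ b = b'
    · have hd := hε _ hm.1 _ hm.2 (IsStar.pc_ne hS.nodup h)
      rcases IsStar.pc_uniq hS.nodup h h' hx with ⟨rfl, rfl⟩ | ⟨rfl, rfl⟩
      · exact not_inter_parallel hd hσ hτ
      · rw [inter_swap_right]
        have := not_inter_parallel (τ := -τ) hd hσ (neg hτ)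
        simpa [sub_eq_add_neg] using this
    · push Not at hx
      have h1 := (Sepd.inter_iff hε hm.1 hm.2 hm'.1 hm'.2 (IsStar.pc_ne hS.nodup h) hx.1 hx.2.1
        hx.2.2.1 hx.2.2.2 hσ (neg hσ) hτ (neg hτ))
      rw [sub_eq_add_neg, sub_eq_add_neg, h1]
      exact hS.pc_nc h h'
  have AB : ∀ {q l a b σ τ}, q ∈ S → q.2 = l ++ [pos q.1] → Pc S (fl l.length false) a b →
      |σ| ≤ ε → |τ| ≤ ε → ¬ Topo.Inter (pos q.1 + τ) (pos q.1 - τ) (a + σ) (b - σ) := by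
    intro q l a b σ τ hq hl h hσ hτ
    have hm := IsStar.pc_mem h
    have hl' := IsStar.last_ne hS.nodup hq hl h
    rw [sub_eq_add_neg, sub_eq_add_neg]
    exact hε.not_inter_near (hS.leaf_mem' hq) hm.1 hm.2 hl'.1 hl'.2 hτ (neg hτ) hσ (neg hσ)
  have AC : ∀ {a b σ f g}, Pc S true a b → |σ| ≤ ε → f ∈ fsts S → g ∈ fsts S →
      ¬ Topo.Inter (a + σ) (b - σ) (f + ε) (g - ε) := by
    intro a b σ f g h hσ hf hg
    have hm := IsStar.pc_mem h
    have g1 := hS.fst_ne hf h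
    have g2 := hS.fst_ne hg h
    have hfp := hS.fst_mem_pts hf
    have hgp := hS.fst_mem_pts hg
    rw [sub_eq_add_neg, sub_eq_add_neg]
    by_cases e : f = g
    · subst e
      rw [inter_comm]
      exact hε.not_inter_near hfp hm.1 hm.2 g1.1 g1.2 hε0.le (neg hε0.le) hσ (neg hσ)
    · rw [Sepd.inter_iff hε hm.1 hm.2 hfp hgp (IsStar.pc_ne hS.nodup h) g1.1.symm
        g2.1.symm g1.2.symm g2.2.symm hσ (neg hσ) hε0.le (neg hε0.le)]
      exact hS.pc_sep h hf hg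
  have BB : ∀ {q q' : ι × List ℝ} {σ τ}, q ∈ S → q' ∈ S → |σ| ≤ ε → |τ| ≤ ε →
      ¬ Topo.Inter (pos q.1 + σ) (pos q.1 - σ) (pos q'.1 + τ) (pos q'.1 - τ) := by
    intro q q' σ τ hq hq' hσ hτ
    by_cases e : pos q.1 = pos q'.1
    · rw [e, Pst.inter_iff]
      rcases le_total σ 0 with s1 | s1 <;> rcases le_total τ 0 with s2 | s2
      · rw [min_eq_left (by linarith), max_eq_right (by linarith)]
        rintro (⟨_, _, _ | _⟩ | ⟨_, _, _ | _⟩) <;> linarith
      · rw [min_eq_left (by linarith), max_eq_right (by linarith)]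
        rintro (⟨_, _, _ | _⟩ | ⟨_, _, _ | _⟩) <;> linarith
      · rw [min_eq_right (by linarith), max_eq_left (by linarith)]
        rintro (⟨_, _, _ | _⟩ | ⟨_, _, _ | _⟩) <;> linarith
      · rw [min_eq_right (by linarith), max_eq_left (by linarith)]
        rintro (⟨_, _, _ | _⟩ | ⟨_, _, _ | _⟩) <;> linarith
    · rw [sub_eq_add_neg, sub_eq_add_neg]
      exact hε.not_inter_near (hS.leaf_mem' hq) (hS.leaf_mem' hq') (hS.leaf_mem' hq') e e hσ
        (neg hσ) hτ (neg hτ)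
  have BC : ∀ {q : ι × List ℝ} {l τ f g}, q ∈ S → q.2 = l ++ [pos q.1] →
      fl l.length false = true → |τ| ≤ ε → f ∈ fsts S → g ∈ fsts S →
      ¬ Topo.Inter (pos q.1 + τ) (pos q.1 - τ) (f + ε) (g - ε) := by
    intro q l τ f g hq hl h hτ hf hg
    rw [sub_eq_add_neg, sub_eq_add_neg]
    exact hε.not_inter_near (hS.leaf_mem' hq) (hS.fst_mem_pts hf) (hS.fst_mem_pts hg)
      (hS.last_ne_fst hq hl h hf) (hS.last_ne_fst hq hl h hg) hτ (neg hτ) hε0.le (neg hε0.le)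
  have CC : ∀ {f g f' g'}, f ∈ fsts (q0 :: T') → g ∈ fsts (q0 :: T') → f' ∈ fsts (q0 :: T') →
      g' ∈ fsts (q0 :: T') → Adj (fsts (q0 :: T')) f g →
      ¬ Topo.Inter (f + ε) (g - ε) (f' + ε) (g' - ε) := by
    intro f g f' g' hf hg hf' hg' hA
    rcases hA with ⟨h1, h2⟩ | ⟨h1, h2⟩
    · have h3 := hε.lt (hS.fst_mem_pts (hfs f hf)) (hS.fst_mem_pts (hfs g hg)) h1
      refine not_inter_out ?_ ?_
      · rw [min_eq_left (by linarith), max_eq_right (by linarith)]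
        rintro ⟨g1, g2⟩
        rcases h2 f' hf' with h | h <;> linarith
      · rw [min_eq_left (by linarith), max_eq_right (by linarith)]
        rintro ⟨g1, g2⟩
        rcases h2 g' hg' with h | h <;> linarith
    · have h3 := h2 f' hf'
      have h4 := h2 g' hg'
      rw [Pst.inter_iff, min_eq_right (by linarith), max_eq_left (by linarith)]
      rintro (⟨_, _, _ | _⟩ | ⟨_, _, _ | _⟩) <;> linarith
  rcases cls h with ⟨p, q, σ, h1, h2, rfl, rfl⟩ | ⟨q, hq, l, hl, h1, σ, h2, rfl, rfl⟩ |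
    ⟨h1, f, g, hf, hg, rfl, rfl, hA⟩ <;>
  rcases cls h' with ⟨p', q', τ, g1, g2, rfl, rfl⟩ | ⟨q', hq', l', hl', g1, τ, g2, rfl, rfl⟩ |
    ⟨g1, f', g', hf', hg', rfl, rfl, hA'⟩
  · exact AA h1 g1 h2 g2
  · rw [inter_comm]; subst g1; exact AB hq' hl' h1 h2 g2
  · subst g1; exact AC h1 h2 (hfs _ hf') (hfs _ hg')
  · subst h1; exact AB hq hl g1 g2 h2
  · exact BB hq hq' h2 g2
  · exact BC hq hl (h1 ▸ g1) h2 (hfs _ hf') (hfs _ hg')
  · rw [inter_comm]; subst h1; exact AC g1 g2 (hfs _ hf) (hfs _ hg)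
  · rw [inter_comm]; exact BC hq' hl' (g1 ▸ h1) g2 (hfs _ hf) (hfs _ hg)
  · exact CC hf hg hf' hg' hA

end Vale.Agent.P040.Pst
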