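import Vale.Agent.P040.H105.Pst

/-!
# Planar star diagrams: the structure and its tuple of loops
-/

namespace Vale.Agent.P040.Pst

open Topo

variable {ι : Type*}

/-- the points of a star -/
def pts (S : List (ι × List ℝ)) : List ℝ := S.flatMap Prod.snd

/-- the pieces of a star with their pages (`true` is the upper page); the pieces at the centre are
not listed -/
def allp (S : List (ι × List ℝ)) : List (Bool × ℝ × ℝ) := S.flatMap fun q => pcs false q.2

/-- the first points of the arms -/
def fsts (S : List (ι × List ℝ)) : List ℝ := S.map fun q => q.2.headI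

/-- Planar star diagrams: the list of arms (leaf, points of the spine) in the order of rotation.
The centre is inside the upper page. -/
structure IsStar (pos : ι → ℝ) (S : List (ι × List ℝ)) : Prop where
  /-- the last point is the leaf -/
  ends : ∀ q ∈ S, ∃ l, q.2 = l ++ [pos q.1]
  /-- every leaf is the end of an arm -/
  full : ∀ x, x ∈ S.map Prod.fst
  nodup : (pts S).Nodup
  /-- pieces in the same page do not interleave -/
  nc : ∀ {c a b a' b'}, (c, a, b) ∈ allp S → (c, a', b') ∈ allp S → ¬ Topo.Inter a b a' b'
  /-- the pieces in the upper page do not separate the first points -/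
  sep : ∀ {a b f f'}, (true, a, b) ∈ allp S → f ∈ fsts S → f' ∈ fsts S → ¬ Topo.Inter a b f f'
  /-- the cyclic order of the first points is the order of rotation -/
  cyc : ∃ l₁ l₂, fsts S = l₂ ++ l₁ ∧ (l₁ ++ l₂).Pairwise (· < ·)

/-- the path along the copy of `v`, back along its other copy, and then `u` -/
def rr (δ : ℝ) (v u : List ℝ) : List ℝ := sh δ v ++ ((sh (-δ) v).reverse ++ u)

/-- The boundary of a thin neighbourhood of the sub-star `S` (a list of arms in the order of
rotation): right copies out, left copies back. A closed curve; its pieces are alternately in the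
lower page (first, second), in the upper page (second, third), ..., the last piece (from the last
point to the first) is in the upper page. -/
def dbl (ε : ℝ) (S : List (ι × List ℝ)) : List ℝ :=
  S.flatMap fun q => sh (-ε) q.2 ++ (sh ε q.2).reverse

/-- Labels of the gaps of the spine (the intervals between neighbouring leaves; the two unbounded
intervals may have the same label): `gap` is constant on intervals without leaves, `lt x` and
`rt x` are the labels to the left and to the right of the leaf `x`. -/
structure Gaps (pos : ι → ℝ) (Γ : Type*) where
  gap : ℝ → Γ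
  lt : ι → Γ
  rt : ι → Γ
  const : ∀ a b, a ≤ b → (∀ x, pos x ∉ Set.Icc a b) → gap a = gap b
  left : ∀ x a, a < pos x → (∀ y, pos y ∉ Set.Ico a (pos x)) → gap a = lt x
  right : ∀ x a, pos x < a → (∀ y, pos y ∉ Set.Ioc (pos x) a) → gap a = rt x

variable {Γ : Type*} {pos : ι → ℝ}

/-- the letter of a crossing (`true`: downwards) -/
def cl (d : Bool) (g : Γ) : FreeGroup Γ := if d then FreeGroup.of g else (FreeGroup.of g)⁻¹

/-- the word of a path; `d` is the direction of the first crossing -/
def wd (G : Gaps pos Γ) : Bool → List ℝ → FreeGroup Γ
  | _, [] => 1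
  | d, p :: t => cl d (G.gap p) * wd G (!d) t

/-- the small loop around the leaf `x`; `d = true`: from the upper page -/
def tip (G : Gaps pos Γ) (x : ι) (d : Bool) : FreeGroup Γ :=
  if d then FreeGroup.of (G.lt x) * (FreeGroup.of (G.rt x))⁻¹
  else (FreeGroup.of (G.rt x))⁻¹ * FreeGroup.of (G.lt x)

/-- the loop of an arm: along the arm, counterclockwise around the leaf, and back -/
def lp (G : Gaps pos Γ) (x : ι) (p : List ℝ) : FreeGroup Γ :=
  wd G true p.dropLast * tip G x (fl p.dropLast.length true) * (wd G true p.dropLast)⁻¹

/-- the tuple of a star -/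
def tup (G : Gaps pos Γ) (S : List (ι × List ℝ)) : List (ι × FreeGroup Γ) :=
  S.map fun q => (q.1, lp G q.1 q.2)

end Vale.Agent.P040.Pst
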