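import Vale.Agent.P040.H198.ArcDiag
import Vale.Agent.P040.Hz.Path

/-!
# Planar star diagrams

A star whose centre lies inside the upper page: the arms are lists of points of the spine, the last
point is the leaf; the piece from the centre to the first point is in the upper page, the next
pieces are alternately in the lower and in the upper page.
-/

namespace Vale.Agent.P040.Pst

open Topo

/-- the page after `n` changes -/
def fl : ℕ → Bool → Bool
  | 0, b => b
  | n + 1, b => fl n (!b)

lemma fl_not (n : ℕ) (b : Bool) : fl n (!b) = !(fl n b) := by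
  induction n generalizing b with
  | zero => rfl
  | succ n ih => exact ih (!b)

lemma fl_succ (n : ℕ) (b : Bool) : fl (n + 1) b = !(fl n b) := fl_not n b

lemma fl_fl (n : ℕ) (b : Bool) : fl n (fl n b) = b := by
  induction n generalizing b with
  | zero => rfl
  | succ n ih => rw [fl_succ n b, fl_succ n, fl_not, ih]; simp

lemma fl_add (m n : ℕ) (b : Bool) : fl (m + n) b = fl n (fl m b) := by
  induction m generalizing b with
  | zero => simp [fl]
  | succ m ih => rw [Nat.succ_add]; exact ih (!b)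

/-- the pieces of a path; the first one is in the page `pg` (`true` is the upper page) -/
def pcs : Bool → List ℝ → List (Bool × ℝ × ℝ)
  | pg, a :: b :: t => (pg, a, b) :: pcs (!pg) (b :: t)
  | _, _ => []

@[simp] lemma pcs_nil (pg : Bool) : pcs pg [] = [] := rfl
@[simp] lemma pcs_one (pg : Bool) (a : ℝ) : pcs pg [a] = [] := rfl
lemma pcs_cons (pg : Bool) (a b : ℝ) (t : List ℝ) :
    pcs pg (a :: b :: t) = (pg, a, b) :: pcs (!pg) (b :: t) := rfl

lemma pcs_append (pg : Bool) (l : List ℝ) (b a : ℝ) (t : List ℝ) :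
    pcs pg (l ++ b :: a :: t) =
      pcs pg (l ++ [b]) ++ (fl l.length pg, b, a) :: pcs (fl (l.length + 1) pg) (a :: t) := by
  induction l generalizing pg with
  | nil => rfl
  | cons c l ih =>
    cases l with
    | nil => rfl
    | cons d l =>
      have h := ih (!pg)
      simp only [List.cons_append, List.length_cons] at h ⊢
      rw [pcs_cons, h, pcs_cons]
      rfl

lemma pcs_reverse (pg : Bool) (l : List ℝ) :
    pcs (fl l.length pg) l.reverse = ((pcs pg l).map fun q => (q.1, q.2.2, q.2.1)).reverse := by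
  induction l generalizing pg with
  | nil => rfl
  | cons a l ih =>
    cases l with
    | nil => rfl
    | cons b t =>
      have h := ih (!pg)
      have e : (a :: b :: t).reverse = t.reverse ++ b :: a :: [] := by simp
      rw [e, pcs_append, pcs_cons]
      have e2 : t.reverse ++ [b] = (b :: t).reverse := by simp
      rw [e2]
      have e3 : fl (a :: b :: t).length pg = fl (b :: t).length (!pg) := rfl
      rw [e3, h]
      simp only [List.map_cons, List.reverse_cons, pcs_one, List.length_reverse]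
      congr 2
      simp only [List.length_cons]
      simp [fl_succ, fl_not, fl_fl]

lemma mem_pcs_reverse {pg : Bool} {l : List ℝ} {c : Bool} {a b : ℝ} :
    (c, a, b) ∈ pcs (fl l.length pg) l.reverse ↔ (c, b, a) ∈ pcs pg l := by
  rw [pcs_reverse]
  simp only [List.mem_reverse, List.mem_map, Prod.mk.injEq, Prod.exists]
  constructor
  · rintro ⟨c', x, y, h, rfl, rfl, rfl⟩; exact h
  · intro h; exact ⟨c, b, a, h, rfl, rfl, rfl⟩

lemma mem_of_pcs {pg : Bool} {l : List ℝ} {c : Bool} {a b : ℝ} (h : (c, a, b) ∈ pcs pg l) :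
    a ∈ l ∧ b ∈ l := by
  induction l generalizing pg with
  | nil => simp at h
  | cons x l ih =>
    cases l with
    | nil => simp at h
    | cons y t =>
      rw [pcs_cons] at h
      rcases List.mem_cons.1 h with h | h
      · simp only [Prod.mk.injEq] at h
        obtain ⟨-, rfl, rfl⟩ := h
        simp
      · exact ⟨List.mem_cons_of_mem _ (ih h).1, List.mem_cons_of_mem _ (ih h).2⟩

/-- the first point of a simple path is only met by the first piece -/
lemma pcs_first {pg : Bool} {x : ℝ} {t : List ℝ} (hn : (x :: t).Nodup) {c : Bool} {a b : ℝ}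
    (h : (c, a, b) ∈ pcs pg (x :: t)) (hx : a = x ∨ b = x) :
    c = pg ∧ a = x ∧ t.head? = some b := by
  cases t with
  | nil => simp at h
  | cons y t =>
    rw [pcs_cons] at h
    rcases List.mem_cons.1 h with h | h
    · simp only [Prod.mk.injEq] at h
      obtain ⟨rfl, rfl, rfl⟩ := h
      simp
    · exfalso
      have := mem_of_pcs h
      rw [List.nodup_cons] at hn
      rcases hx with rfl | rfl
      · exact hn.1 this.1
      · exact hn.1 this.2

lemma pcs_ne {pg : Bool} {l : List ℝ} (hn : l.Nodup) {c : Bool} {a b : ℝ}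
    (h : (c, a, b) ∈ pcs pg l) : a ≠ b := by
  induction l generalizing pg with
  | nil => simp at h
  | cons x l ih =>
    cases l with
    | nil => simp at h
    | cons y t =>
      rw [pcs_cons] at h
      rcases List.mem_cons.1 h with h | h
      · simp only [Prod.mk.injEq] at h
        obtain ⟨-, rfl, rfl⟩ := h
        intro e
        simp [e] at hn
      · exact ih (List.nodup_cons.1 hn).2 h

/-- two pieces of a simple path in the same page with a common end are equal -/
lemma pcs_uniq {pg : Bool} {l : List ℝ} (hn : l.Nodup) {c : Bool} {a b a' b' : ℝ}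
    (h : (c, a, b) ∈ pcs pg l) (h' : (c, a', b') ∈ pcs pg l)
    (hx : a = a' ∨ a = b' ∨ b = a' ∨ b = b') : a = a' ∧ b = b' := by
  induction l generalizing pg with
  | nil => simp at h
  | cons x l ih =>
    cases l with
    | nil => simp at h
    | cons y t =>
      have hn' := List.nodup_cons.1 hn
      -- a piece in the page `pg` of the tail does not contain `x` or `y`
      have key : ∀ {c : Bool} {a b : ℝ}, (c, a, b) ∈ pcs (!pg) (y :: t) → c = pg →
          a ≠ x ∧ b ≠ x ∧ a ≠ y ∧ b ≠ y := by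
        intro c a b hq hc
        have hm := mem_of_pcs hq
        refine ⟨fun e => hn'.1 (e ▸ hm.1), fun e => hn'.1 (e ▸ hm.2), ?_, ?_⟩
        · intro e
          have := (pcs_first hn'.2 hq (Or.inl e)).1
          rw [hc] at this
          cases pg <;> simp at this
        · intro e
          have := (pcs_first hn'.2 hq (Or.inr e)).1
          rw [hc] at this
          cases pg <;> simp at this
      rw [pcs_cons] at h h'
      rcases List.mem_cons.1 h with g | g <;> rcases List.mem_cons.1 h' with g' | g'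
      · simp only [Prod.mk.injEq] at g g'
        obtain ⟨-, rfl, rfl⟩ := g
        obtain ⟨-, rfl, rfl⟩ := g'
        exact ⟨rfl, rfl⟩
      · simp only [Prod.mk.injEq] at g
        obtain ⟨rfl, rfl, rfl⟩ := g
        have := key g' rfl
        rcases hx with e | e | e | e
        · exact absurd e.symm this.1
        · exact absurd e.symm this.2.1
        · exact absurd e.symm this.2.2.1
        · exact absurd e.symm this.2.2.2
      · simp only [Prod.mk.injEq] at g'
        obtain ⟨rfl, rfl, rfl⟩ := g'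
        have := key g rfl
        rcases hx with e | e | e | e
        · exact absurd e this.1
        · exact absurd e this.2.2.1
        · exact absurd e this.2.1
        · exact absurd e this.2.2.2
      · exact ih hn'.2 g g'

/-- the last point of a simple path is only met in one page -/
lemma pcs_last {pg : Bool} {x : ℝ} {l : List ℝ} (hn : (l ++ [x]).Nodup) {c : Bool} {a b : ℝ}
    (h : (c, a, b) ∈ pcs pg (l ++ [x])) (hx : a = x ∨ b = x) : c = fl (l.length + 1) pg := by
  have h1 : (c, b, a) ∈ pcs (fl (l ++ [x]).length pg) (l ++ [x]).reverse :=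
    mem_pcs_reverse.2 h
  have e : (l ++ [x]).reverse = x :: l.reverse := by simp
  rw [e] at h1
  have hn' : (x :: l.reverse).Nodup := by rw [← e]; exact List.nodup_reverse.2 hn
  have := (pcs_first hn' h1 (by tauto)).1
  simpa using this

/-! ### Copies of a path at distance `δ`: at the first point it is moved by `δ`, at the next point
by `-δ`, and so on. -/

/-- the copy of a path -/
def sh : ℝ → List ℝ → List ℝ
  | _, [] => []
  | δ, a :: t => (a + δ) :: sh (-δ) t

@[simp] lemma sh_nil (δ : ℝ) : sh δ [] = [] := rfl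
@[simp] lemma sh_cons (δ a : ℝ) (t : List ℝ) : sh δ (a :: t) = (a + δ) :: sh (-δ) t := rfl

@[simp] lemma sh_length (δ : ℝ) (l : List ℝ) : (sh δ l).length = l.length := by
  induction l generalizing δ with
  | nil => rfl
  | cons a t ih => simp [ih]

/-- the shift of the `n`-th point -/
def sg (n : ℕ) (δ : ℝ) : ℝ := (-1) ^ n * δ

@[simp] lemma sg_zero (δ : ℝ) : sg 0 δ = δ := by simp [sg]
lemma sg_succ (n : ℕ) (δ : ℝ) : sg (n + 1) δ = sg n (-δ) := by simp [sg, pow_succ]
lemma sg_neg (n : ℕ) (δ : ℝ) : sg n (-δ) = -sg n δ := by simp [sg]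
lemma abs_sg (n : ℕ) (δ : ℝ) : |sg n δ| = |δ| := by simp [sg, abs_mul]

lemma sh_append (δ : ℝ) (l l' : List ℝ) : sh δ (l ++ l') = sh δ l ++ sh (sg l.length δ) l' := by
  induction l generalizing δ with
  | nil => simp
  | cons a t ih => simp [ih, sg_succ]

lemma mem_sh {δ : ℝ} {l : List ℝ} {p : ℝ} (h : p ∈ sh δ l) :
    ∃ a ∈ l, ∃ σ, |σ| = |δ| ∧ p = a + σ := by
  induction l generalizing δ with
  | nil => simp at h
  | cons a t ih =>
    rw [sh_cons] at h
    rcases List.mem_cons.1 h with rfl | h
    · exact ⟨a, by simp, δ, rfl, rfl⟩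
    · obtain ⟨b, hb, σ, hσ, e⟩ := ih h
      exact ⟨b, List.mem_cons_of_mem _ hb, σ, by simpa using hσ, e⟩

lemma mem_pcs_sh {δ : ℝ} {l : List ℝ} {pg c : Bool} {p q : ℝ} (h : (c, p, q) ∈ pcs pg (sh δ l)) :
    ∃ a b σ, (c, a, b) ∈ pcs pg l ∧ |σ| = |δ| ∧ p = a + σ ∧ q = b - σ := by
  induction l generalizing δ pg with
  | nil => simp at h
  | cons a t ih =>
    cases t with
    | nil => simp at h
    | cons b t =>
      simp only [sh_cons] at h ih
      rw [pcs_cons] at h
      rcases List.mem_cons.1 h with h | h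
      · simp only [Prod.mk.injEq] at h
        obtain ⟨rfl, rfl, rfl⟩ := h
        exact ⟨a, b, δ, by simp [pcs_cons], rfl, rfl, by ring⟩
      · obtain ⟨a', b', σ, h1, h2, h3, h4⟩ := ih h
        exact ⟨a', b', σ, List.mem_cons_of_mem _ h1, by simpa using h2, h3, h4⟩

/-! ### Separated points -/

/-- distinct points of `L` have distance more than `3 ε` -/
def Sepd (ε : ℝ) (L : List ℝ) : Prop := ∀ p ∈ L, ∀ q ∈ L, p ≠ q → 3 * ε < |p - q|

lemma exists_sepd (L : List ℝ) : ∃ ε > 0, Sepd ε L := by
  induction L with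
  | nil => exact ⟨1, one_pos, by intro p hp; simp at hp⟩
  | cons a t ih =>
    obtain ⟨ε, h0, h⟩ := ih
    have : ∃ η > 0, ∀ q ∈ t, a ≠ q → 3 * η < |a - q| := by
      clear h
      induction t with
      | nil => exact ⟨1, one_pos, by intro p hp; simp at hp⟩
      | cons b t ih =>
        obtain ⟨η, h1, h2⟩ := ih
        by_cases hb : a = b
        · refine ⟨η, h1, ?_⟩
          intro q hq hne
          rcases List.mem_cons.1 hq with rfl | hq
          · exact absurd hb hne
          · exact h2 q hq hne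
        · have hpos : 0 < |a - b| := abs_pos.2 (sub_ne_zero.2 hb)
          refine ⟨min η (|a - b| / 4), lt_min h1 (by positivity), ?_⟩
          intro q hq hne
          rcases List.mem_cons.1 hq with rfl | hq
          · have := min_le_right η (|a - q| / 4)
            linarith
          · have := min_le_left η (|a - b| / 4)
            have := h2 q hq hne
            linarith
    obtain ⟨η, h1, h2⟩ := this
    refine ⟨min ε η, lt_min h0 h1, ?_⟩
    have l1 := min_le_left ε η
    have l2 := min_le_right ε η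
    intro p hp q hq hne
    rcases List.mem_cons.1 hp with g | g <;> rcases List.mem_cons.1 hq with g' | g'
    · exact absurd (g.trans g'.symm) hne
    · subst g
      have := h2 q g' hne
      linarith
    · subst g'
      have := h2 p g hne.symm
      rw [abs_sub_comm]
      linarith
    · have := h p g q g' hne
      linarith

lemma Sepd.mono {ε : ℝ} {L L' : List ℝ} (h : Sepd ε L) (hs : ∀ p ∈ L', p ∈ L) : Sepd ε L' :=
  fun p hp q hq => h p (hs p hp) q (hs q hq)

lemma Sepd.le {ε ε' : ℝ} {L : List ℝ} (h : Sepd ε L) (hs : ε' ≤ ε) : Sepd ε' L :=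
  fun p hp q hq hne => by have := h p hp q hq hne; linarith

lemma Sepd.lt {ε : ℝ} {L : List ℝ} (h : Sepd ε L) {p q : ℝ} (hp : p ∈ L) (hq : q ∈ L)
    (hlt : p < q) : p + 3 * ε < q := by
  have := h p hp q hq hlt.ne
  rw [abs_sub_comm, abs_of_pos (by linarith)] at this
  linarith

/-- moving points by at most `ε` keeps the order of distinct points -/
lemma Sepd.lt_iff {ε : ℝ} {L : List ℝ} (h : Sepd ε L) {p q : ℝ} (hp : p ∈ L) (hq : q ∈ L)
    (hne : p ≠ q) {σ τ : ℝ} (hσ : |σ| ≤ ε) (hτ : |τ| ≤ ε) : p + σ < q + τ ↔ p < q := by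
  have h1 := abs_le.1 hσ
  have h2 := abs_le.1 hτ
  constructor
  · intro hh
    rcases lt_or_gt_of_ne hne with h' | h'
    · exact h'
    · have := h.lt hq hp h'
      linarith
  · intro h'
    have := h.lt hp hq h'
    linarith

lemma Sepd.ne {ε : ℝ} {L : List ℝ} (h : Sepd ε L) {p q : ℝ} (hp : p ∈ L) (hq : q ∈ L)
    (hne : p ≠ q) {σ τ : ℝ} (hσ : |σ| ≤ ε) (hτ : |τ| ≤ ε) : p + σ ≠ q + τ := by
  rcases lt_or_gt_of_ne hne with h' | h'
  · exact ((h.lt_iff hp hq hne hσ hτ).2 h').ne
  · exact ((h.lt_iff hq hp hne.symm hτ hσ).2 h').ne'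

/-! ### Interleaving -/

lemma inter_iff {a b c d : ℝ} : Topo.Inter a b c d ↔
    (min a b < c ∧ c < max a b ∧ (d < min a b ∨ max a b < d)) ∨
    (min a b < d ∧ d < max a b ∧ (c < min a b ∨ max a b < c)) := by
  unfold Topo.Inter
  rcases le_total c d with h | h
  · rw [min_eq_left h, max_eq_right h]
    constructor
    · rintro (⟨h1, h2, h3⟩ | ⟨h1, h2, h3⟩)
      · exact Or.inl ⟨h1, h2, Or.inr h3⟩
      · exact Or.inr ⟨h2, h3, Or.inl h1⟩
    · rintro (⟨h1, h2, h3 | h3⟩ | ⟨h1, h2, h3 | h3⟩)
      · exact absurd (h1.trans_le h) (not_lt.2 h3.le)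
      · exact Or.inl ⟨h1, h2, h3⟩
      · exact Or.inr ⟨h3, h1, h2⟩
      · exact absurd (h3.trans_le h) (not_lt.2 h2.le)
  · rw [min_eq_right h, max_eq_left h]
    constructor
    · rintro (⟨h1, h2, h3⟩ | ⟨h1, h2, h3⟩)
      · exact Or.inr ⟨h1, h2, Or.inr h3⟩
      · exact Or.inl ⟨h2, h3, Or.inl h1⟩
    · rintro (⟨h1, h2, h3 | h3⟩ | ⟨h1, h2, h3 | h3⟩)
      · exact Or.inr ⟨h3, h1, h2⟩
      · exact absurd (h3.trans_le h) (not_lt.2 h2.le)
      · exact absurd (h1.trans_le h) (not_lt.2 h3.le)
      · exact Or.inl ⟨h1, h2, h3⟩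

lemma inter_swap_left {a b c d : ℝ} : Topo.Inter a b c d ↔ Topo.Inter b a c d := by
  unfold Topo.Inter; rw [min_comm a b, max_comm a b]

lemma inter_swap_right {a b c d : ℝ} : Topo.Inter a b c d ↔ Topo.Inter a b d c := by
  unfold Topo.Inter; rw [min_comm c d, max_comm c d]

lemma inter_comm {a b c d : ℝ} : Topo.Inter a b c d ↔ Topo.Inter c d a b := by
  unfold Topo.Inter; tauto

/-- interleaving depends only on the order of the points -/
lemma inter_congr {a b c d a' b' c' d' : ℝ} (hab : a ≠ b) (hab' : a < b ↔ a' < b')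
    (hne : a' ≠ b')
    (h1 : a < c ↔ a' < c') (h2 : b < c ↔ b' < c') (h3 : a < d ↔ a' < d') (h4 : b < d ↔ b' < d')
    (g1 : c < a ↔ c' < a') (g2 : c < b ↔ c' < b') (g3 : d < a ↔ d' < a') (g4 : d < b ↔ d' < b') :
    Topo.Inter a b c d ↔ Topo.Inter a' b' c' d' := by
  rw [inter_iff, inter_iff]
  rcases lt_or_gt_of_ne hab with h | h
  · have h' := hab'.1 h
    rw [min_eq_left h.le, max_eq_right h.le, min_eq_left h'.le, max_eq_right h'.le]
    simp only [h1, h2, h3, h4, g1, g2, g3, g4]
  · have h' : b' < a' := by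
      rcases lt_or_gt_of_ne hne with h5 | h5
      · exact absurd (hab'.2 h5) (not_lt.2 h.le)
      · exact h5
    rw [min_eq_right h.le, max_eq_left h.le, min_eq_right h'.le, max_eq_left h'.le]
    simp only [h1, h2, h3, h4, g1, g2, g3, g4]

/-- moving four distinct points by at most `ε` -/
lemma Sepd.inter_iff {ε : ℝ} {L : List ℝ} (h : Sepd ε L) {a b c d : ℝ} (ha : a ∈ L) (hb : b ∈ L)
    (hc : c ∈ L) (hd : d ∈ L) (hab : a ≠ b) (hac : a ≠ c) (had : a ≠ d) (hbc : b ≠ c)
    (hbd : b ≠ d) {σ₁ σ₂ σ₃ σ₄ : ℝ} (h1 : |σ₁| ≤ ε) (h2 : |σ₂| ≤ ε) (h3 : |σ₃| ≤ ε)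
    (h4 : |σ₄| ≤ ε) :
    Topo.Inter (a + σ₁) (b + σ₂) (c + σ₃) (d + σ₄) ↔ Topo.Inter a b c d :=
  inter_congr (h.ne ha hb hab h1 h2) (h.lt_iff ha hb hab h1 h2) hab
    (h.lt_iff ha hc hac h1 h3) (h.lt_iff hb hc hbc h2 h3) (h.lt_iff ha hd had h1 h4)
    (h.lt_iff hb hd hbd h2 h4) (h.lt_iff hc ha hac.symm h3 h1) (h.lt_iff hc hb hbc.symm h3 h2)
    (h.lt_iff hd ha had.symm h4 h1) (h.lt_iff hd hb hbd.symm h4 h2)

/-- copies of one piece do not interleave -/
lemma not_inter_parallel {a b σ τ ε : ℝ} (hab : 3 * ε < |a - b|) (hσ : |σ| ≤ ε) (hτ : |τ| ≤ ε) :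
    ¬ Topo.Inter (a + σ) (b - σ) (a + τ) (b - τ) := by
  have h1 := abs_le.1 hσ
  have h2 := abs_le.1 hτ
  rw [Pst.inter_iff]
  rcases le_total a b with h | h
  · rw [abs_of_nonpos (by linarith)] at hab
    rw [min_eq_left (by linarith), max_eq_right (by linarith)]
    rintro (⟨g1, g2, g3 | g3⟩ | ⟨g1, g2, g3 | g3⟩) <;> linarith
  · rw [abs_of_nonneg (by linarith)] at hab
    rw [min_eq_right (by linarith), max_eq_left (by linarith)]
    rintro (⟨g1, g2, g3 | g3⟩ | ⟨g1, g2, g3 | g3⟩) <;> linarith

/-- a short piece around the point `y` does not interleave with pieces which do not end at `y` -/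
lemma Sepd.not_inter_tip {ε : ℝ} {L : List ℝ} (h : Sepd ε L) {y a b : ℝ} (hy : y ∈ L) (ha : a ∈ L)
    (hb : b ∈ L) (hya : y ≠ a) (hyb : y ≠ b) {τ σ₁ σ₂ : ℝ} (hτ : |τ| ≤ ε) (h1 : |σ₁| ≤ ε)
    (h2 : |σ₂| ≤ ε) : ¬ Topo.Inter (y + τ) (y - τ) (a + σ₁) (b + σ₂) := by
  have e1 := abs_le.1 h1
  have e2 := abs_le.1 h2
  have e3 := abs_le.1 hτ
  have p1 := h.lt hy ha
  have p2 := h.lt ha hy
  have p3 := h.lt hy hb
  have p4 := h.lt hb hy
  rw [Pst.inter_iff]
  rcases le_total 0 τ with ht | ht
  · rw [min_eq_right (by linarith), max_eq_left (by linarith)]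
    rintro (⟨g1, g2, -⟩ | ⟨g1, g2, -⟩)
    · rcases lt_or_gt_of_ne hya with q | q
      · have := p1 q; linarith
      · have := p2 q; linarith
    · rcases lt_or_gt_of_ne hyb with q | q
      · have := p3 q; linarith
      · have := p4 q; linarith
  · rw [min_eq_left (by linarith), max_eq_right (by linarith)]
    rintro (⟨g1, g2, -⟩ | ⟨g1, g2, -⟩)
    · rcases lt_or_gt_of_ne hya with q | q
      · have := p1 q; linarith
      · have := p2 q; linarith
    · rcases lt_or_gt_of_ne hyb with q | q
      · have := p3 q; linarith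
      · have := p4 q; linarith

end Vale.Agent.P040.Pst
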