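import Vale.Agent.P040.H105.Star

/-!
# Realisation of Hurwitz moves by planar star diagrams
-/

namespace Vale.Agent.P040.Pst

open Topo

variable {ι : Type*}

/-- a piece in either direction -/
def Pc (S : List (ι × List ℝ)) (c : Bool) (a b : ℝ) : Prop := (c, a, b) ∈ allp S ∨ (c, b, a) ∈ allp S

lemma Pc.symm {S : List (ι × List ℝ)} {c : Bool} {a b : ℝ} (h : Pc S c a b) : Pc S c b a :=
  Or.symm h

lemma mem_allp {S : List (ι × List ℝ)} {c : Bool} {a b : ℝ} :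
    (c, a, b) ∈ allp S ↔ ∃ q ∈ S, (c, a, b) ∈ pcs false q.2 := by
  simp [allp, List.mem_flatMap]

lemma mem_pts {S : List (ι × List ℝ)} {p : ℝ} : p ∈ pts S ↔ ∃ q ∈ S, p ∈ q.2 := by
  simp [pts, List.mem_flatMap]

lemma mem_pts_of {S : List (ι × List ℝ)} {q : ι × List ℝ} (hq : q ∈ S) {p : ℝ} (hp : p ∈ q.2) :
    p ∈ pts S := mem_pts.2 ⟨q, hq, hp⟩

/-- the pieces of the rerouted path -/
lemma mem_pcs_rr {δ : ℝ} {v0 v' u' : List ℝ} {v u : List ℝ} {y v1 u1 : ℝ} (hv : v = v0 ++ [y])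
    (hv' : v = v1 :: v') (hu : u = u1 :: u') {c : Bool} {p q : ℝ}
    (h : (c, p, q) ∈ pcs false (rr δ v u)) :
    (∃ a b σ, ((c, a, b) ∈ pcs false v ∨ (c, b, a) ∈ pcs false v) ∧ |σ| = |δ| ∧ p = a + σ ∧
      q = b - σ) ∨
    (c = fl v0.length false ∧ ∃ σ, |σ| = |δ| ∧ p = y + σ ∧ q = y - σ) ∨
    (c = true ∧ p = v1 - δ ∧ q = u1) ∨ (c, p, q) ∈ pcs false u := by
  have e1 : sh δ v = sh δ v0 ++ [y + sg v0.length δ] := by rw [hv, sh_append]; simp
  have e2 : (sh (-δ) v).reverse = (y - sg v0.length δ) :: (sh (-δ) v0).reverse := by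
    rw [hv, sh_append]; simp [sg_neg, sub_eq_add_neg]
  have e3 : (sh (-δ) v).reverse = (sh δ v').reverse ++ [v1 - δ] := by
    rw [hv']; simp [sub_eq_add_neg]
  have e4 : rr δ v u = sh δ v0 ++ (y + sg v0.length δ) ::
      (y - sg v0.length δ) :: ((sh (-δ) v0).reverse ++ u) := by
    rw [rr, e1, e2]; simp
  have e5 : (y - sg v0.length δ) :: ((sh (-δ) v0).reverse ++ u) =
      (sh δ v').reverse ++ (v1 - δ) :: u1 :: u' := by
    have : (y - sg v0.length δ) :: ((sh (-δ) v0).reverse ++ u) = (sh (-δ) v).reverse ++ u := by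
      rw [e2]; simp
    rw [this, e3, hu]; simp
  have hl : v.length = v0.length + 1 := by rw [hv]; simp
  have hl' : v.length = v'.length + 1 := by rw [hv']; simp
  rw [e4, pcs_append, ← e1, List.mem_append, List.mem_cons, e5, pcs_append, ← e3,
    List.mem_append, List.mem_cons, ← hu] at h
  rcases h with h | h | h | h | h
  · obtain ⟨a, b, σ, h1, h2, h3, h4⟩ := mem_pcs_sh h
    exact Or.inl ⟨a, b, σ, Or.inl h1, h2, h3, h4⟩
  · simp only [Prod.mk.injEq, sh_length] at h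
    exact Or.inr (Or.inl ⟨h.1, _, abs_sg _ _, h.2.1, h.2.2⟩)
  · have e6 : fl ((sh δ v0).length + 1) false = fl (sh (-δ) v).length false := by
      simp [hl]
    rw [e6, mem_pcs_reverse] at h
    obtain ⟨a, b, σ, h1, h2, h3, h4⟩ := mem_pcs_sh h
    refine Or.inl ⟨b, a, -σ, Or.inr h1, by simpa using h2, ?_, ?_⟩
    · rw [h4]; ring
    · rw [h3]; ring
  · simp only [Prod.mk.injEq] at h
    refine Or.inr (Or.inr (Or.inl ⟨?_, h.2.1, h.2.2⟩))
    rw [h.1]
    simp only [sh_length, List.length_reverse]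
    rw [← hl, hl', fl_succ, fl_not, fl_fl]
    rfl
  · have e6 : fl ((sh δ v').reverse.length + 1) (fl ((sh δ v0).length + 1) false) = false := by
      simp only [sh_length, List.length_reverse]
      rw [← hl, ← hl', fl_fl]
    rw [e6] at h
    exact Or.inr (Or.inr (Or.inr h))

/-- a short piece around `y` does not interleave with pieces which do not end near `y` -/
lemma Sepd.not_inter_near {ε : ℝ} {L : List ℝ} (h : Sepd ε L) {y a b : ℝ} (hy : y ∈ L) (ha : a ∈ L)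
    (hb : b ∈ L) (hya : y ≠ a) (hyb : y ≠ b) {τ τ' σ₁ σ₂ : ℝ} (hτ : |τ| ≤ ε) (hτ' : |τ'| ≤ ε)
    (h1 : |σ₁| ≤ ε) (h2 : |σ₂| ≤ ε) : ¬ Topo.Inter (y + τ) (y + τ') (a + σ₁) (b + σ₂) := by
  have e1 := abs_le.1 h1
  have e2 := abs_le.1 h2
  have e3 := abs_le.1 hτ
  have e4 := abs_le.1 hτ'
  have p1 := h.lt hy ha
  have p2 := h.lt ha hy
  have p3 := h.lt hy hb
  have p4 := h.lt hb hy
  rw [Pst.inter_iff]
  rcases le_total τ τ' with ht | ht
  · rw [min_eq_left (by linarith), max_eq_right (by linarith)]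
    rintro (⟨g1, g2, -⟩ | ⟨g1, g2, -⟩)
    · rcases lt_or_gt_of_ne hya with q | q
      · have := p1 q; linarith
      · have := p2 q; linarith
    · rcases lt_or_gt_of_ne hyb with q | q
      · have := p3 q; linarith
      · have := p4 q; linarith
  · rw [min_eq_right (by linarith), max_eq_left (by linarith)]
    rintro (⟨g1, g2, -⟩ | ⟨g1, g2, -⟩)
    · rcases lt_or_gt_of_ne hya with q | q
      · have := p1 q; linarith
      · have := p2 q; linarith
    · rcases lt_or_gt_of_ne hyb with q | q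
      · have := p3 q; linarith
      · have := p4 q; linarith

namespace IsStar

variable {pos : ι → ℝ} {S : List (ι × List ℝ)}

lemma arm_eq (hS : (pts S).Nodup) {q q' : ι × List ℝ} (hq : q ∈ S) (hq' : q' ∈ S) {p : ℝ}
    (hp : p ∈ q.2) (hp' : p ∈ q'.2) : q = q' := by
  by_contra hne
  have h := (List.nodup_flatMap.1 hS).2
  have : Std.Symm (Function.onFun List.Disjoint (Prod.snd : ι × List ℝ → List ℝ)) :=
    ⟨fun a b h => List.Disjoint.symm h⟩
  exact List.Pairwise.forall h hq hq' hne hp hp'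

lemma arm_nodup (hS : (pts S).Nodup) {q : ι × List ℝ} (hq : q ∈ S) : q.2.Nodup :=
  (List.nodup_flatMap.1 hS).1 q hq

lemma pc_mem {c : Bool} {a b : ℝ} (h : Pc S c a b) : a ∈ pts S ∧ b ∈ pts S := by
  rcases h with h | h
  · obtain ⟨q, hq, hp⟩ := mem_allp.1 h
    exact ⟨mem_pts_of hq (mem_of_pcs hp).1, mem_pts_of hq (mem_of_pcs hp).2⟩
  · obtain ⟨q, hq, hp⟩ := mem_allp.1 h
    exact ⟨mem_pts_of hq (mem_of_pcs hp).2, mem_pts_of hq (mem_of_pcs hp).1⟩

lemma pc_ne (hS : (pts S).Nodup) {c : Bool} {a b : ℝ} (h : Pc S c a b) : a ≠ b := by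
  rcases h with h | h
  · obtain ⟨q, hq, hp⟩ := mem_allp.1 h
    exact pcs_ne (arm_nodup hS hq) hp
  · obtain ⟨q, hq, hp⟩ := mem_allp.1 h
    exact (pcs_ne (arm_nodup hS hq) hp).symm

lemma uniq0 (hS : (pts S).Nodup) {c : Bool} {a b a' b' : ℝ} (h : (c, a, b) ∈ allp S)
    (h' : (c, a', b') ∈ allp S) (hx : a = a' ∨ a = b' ∨ b = a' ∨ b = b') : a = a' ∧ b = b' := by
  obtain ⟨q, hq, hp⟩ := mem_allp.1 h
  obtain ⟨q', hq', hp'⟩ := mem_allp.1 h'
  have : q = q' := by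
    rcases hx with rfl | rfl | rfl | rfl
    · exact arm_eq hS hq hq' (mem_of_pcs hp).1 (mem_of_pcs hp').1
    · exact arm_eq hS hq hq' (mem_of_pcs hp).1 (mem_of_pcs hp').2
    · exact arm_eq hS hq hq' (mem_of_pcs hp).2 (mem_of_pcs hp').1
    · exact arm_eq hS hq hq' (mem_of_pcs hp).2 (mem_of_pcs hp').2
  subst this
  exact pcs_uniq (arm_nodup hS hq) hp hp' hx

/-- pieces in the same page with a common end are equal -/
lemma pc_uniq (hS : (pts S).Nodup) {c : Bool} {a b a' b' : ℝ} (h : Pc S c a b)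
    (h' : Pc S c a' b') (hx : a = a' ∨ a = b' ∨ b = a' ∨ b = b') :
    (a = a' ∧ b = b') ∨ (a = b' ∧ b = a') := by
  rcases h with h | h <;> rcases h' with h' | h'
  · exact Or.inl (uniq0 hS h h' hx)
  · exact Or.inr (uniq0 hS h h' (by tauto))
  · have := uniq0 hS h h' (by tauto)
    exact Or.inr ⟨this.2, this.1⟩
  · have := uniq0 hS h h' (by tauto)
    exact Or.inl ⟨this.2, this.1⟩

lemma pc_nc (hS : IsStar pos S) {c : Bool} {a b a' b' : ℝ} (h : Pc S c a b)
    (h' : Pc S c a' b') : ¬ Topo.Inter a b a' b' := by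
  rcases h with h | h <;> rcases h' with h' | h'
  · exact hS.nc h h'
  · rw [inter_swap_right]; exact hS.nc h h'
  · rw [inter_swap_left]; exact hS.nc h h'
  · rw [inter_swap_left, inter_swap_right]; exact hS.nc h h'

lemma pc_sep (hS : IsStar pos S) {a b f f' : ℝ} (h : Pc S true a b)
    (hf : f ∈ fsts S) (hf' : f' ∈ fsts S) : ¬ Topo.Inter a b f f' := by
  rcases h with h | h
  · exact hS.sep h hf hf'
  · rw [inter_swap_left]; exact hS.sep h hf hf'

lemma arm_ne_nil (hS : IsStar pos S) {q : ι × List ℝ} (hq : q ∈ S) : q.2 ≠ [] := by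
  obtain ⟨l, hl⟩ := hS.ends q hq
  rw [hl]; simp

lemma fst_mem (hS : IsStar pos S) {f : ℝ} (hf : f ∈ fsts S) :
    ∃ q ∈ S, ∃ t, q.2 = f :: t := by
  obtain ⟨q, hq, rfl⟩ := List.mem_map.1 hf
  obtain ⟨a, t, h⟩ := List.exists_cons_of_ne_nil (hS.arm_ne_nil hq)
  exact ⟨q, hq, t, by simp [h]⟩

lemma fst_mem_pts (hS : IsStar pos S) {f : ℝ} (hf : f ∈ fsts S) : f ∈ pts S := by
  obtain ⟨q, hq, t, h⟩ := hS.fst_mem hf
  exact mem_pts_of hq (by simp [h])

/-- a first point is not an end of a piece in the upper page -/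
lemma fst_ne (hS : IsStar pos S) {f a b : ℝ} (hf : f ∈ fsts S) (h : Pc S true a b) :
    f ≠ a ∧ f ≠ b := by
  obtain ⟨q, hq, t, hqt⟩ := hS.fst_mem hf
  have key : ∀ {a b}, (true, a, b) ∈ allp S → a ≠ f ∧ b ≠ f := by
    intro a b h
    obtain ⟨q', hq', hp⟩ := mem_allp.1 h
    have hf' : f ∈ q.2 := by simp [hqt]
    constructor
    · rintro rfl
      have := arm_eq hS.nodup hq hq' hf' (mem_of_pcs hp).1
      subst this
      have hn := arm_nodup hS.nodup hq
      rw [hqt] at hp hn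
      have := (pcs_first hn hp (Or.inl rfl)).1
      simp at this
    · rintro rfl
      have := arm_eq hS.nodup hq hq' hf' (mem_of_pcs hp).2
      subst this
      have hn := arm_nodup hS.nodup hq
      rw [hqt] at hp hn
      have := (pcs_first hn hp (Or.inr rfl)).1
      simp at this
  rcases h with h | h
  · exact ⟨(key h).1.symm, (key h).2.symm⟩
  · exact ⟨(key h).2.symm, (key h).1.symm⟩

/-- the leaf is not an end of a piece in the page opposite to the page of arrival -/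
lemma last_ne (hS : (pts S).Nodup) {q : ι × List ℝ} (hq : q ∈ S) {l : List ℝ} {y : ℝ}
    (hl : q.2 = l ++ [y]) {a b : ℝ} (h : Pc S (fl l.length false) a b) : y ≠ a ∧ y ≠ b := by
  have hy : y ∈ q.2 := by simp [hl]
  have hn := arm_nodup hS hq
  rw [hl] at hn
  have key : ∀ {a b}, (fl l.length false, a, b) ∈ allp S → a ≠ y ∧ b ≠ y := by
    intro a b h
    obtain ⟨q', hq', hp⟩ := mem_allp.1 h
    constructor
    · rintro rfl
      have := arm_eq hS hq hq' hy (mem_of_pcs hp).1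
      subst this
      rw [hl] at hp
      have := pcs_last hn hp (Or.inl rfl)
      rw [fl_succ] at this
      simp at this
    · rintro rfl
      have := arm_eq hS hq hq' hy (mem_of_pcs hp).2
      subst this
      rw [hl] at hp
      have := pcs_last hn hp (Or.inr rfl)
      rw [fl_succ] at this
      simp at this
  rcases h with h | h
  · exact ⟨(key h).1.symm, (key h).2.symm⟩
  · exact ⟨(key h).2.symm, (key h).1.symm⟩

/-- if the tip piece is in the upper page, the leaf is not a first point -/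
lemma last_ne_fst (hS : IsStar pos S) {q : ι × List ℝ} (hq : q ∈ S) {l : List ℝ} {y : ℝ}
    (hl : q.2 = l ++ [y]) (h : fl l.length false = true) {f : ℝ} (hf : f ∈ fsts S) : y ≠ f := by
  rintro rfl
  obtain ⟨q', hq', t, ht⟩ := hS.fst_mem hf
  have := arm_eq hS.nodup hq hq' (p := y) (by simp [hl]) (by simp [ht])
  subst this
  have hn := arm_nodup hS.nodup hq
  rw [hl] at ht hn
  cases l with
  | nil => simp [fl] at h
  | cons z l =>
    simp only [List.cons_append, List.cons.injEq] at ht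
    obtain ⟨rfl, -⟩ := ht
    simp at hn

end IsStar

lemma not_inter_self {a b : ℝ} : ¬ Topo.Inter a b a b := by
  rintro (⟨h, -⟩ | ⟨h, -⟩) <;> exact lt_irrefl _ h

/-- **The new pieces.** The pieces of the star after rerouting along `v`. -/
lemma core {pos : ι → ℝ} {S S' : List (ι × List ℝ)} (hS : IsStar pos S) {x y : ι} {u v : List ℝ}
    (hu : (x, u) ∈ S) (hv : (y, v) ∈ S) (hne : (x, u) ≠ (y, v)) {ε δ : ℝ} (hε : Sepd ε (pts S))
    (h0 : 0 < ε) (hδ : |δ| = ε)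
    (hp : ∀ c a b, (c, a, b) ∈ allp S' → (c, a, b) ∈ allp S ∨ (c, a, b) ∈ pcs false (rr δ v u))
    (hf : ∀ f ∈ fsts S', f ∈ fsts S ∨ f = v.headI + δ)
    (hC : ∀ f ∈ fsts S', ∀ f' ∈ fsts S', ¬ Topo.Inter (v.headI - δ) u.headI f f') :
    (∀ {c a b a' b'}, (c, a, b) ∈ allp S' → (c, a', b') ∈ allp S' → ¬ Topo.Inter a b a' b') ∧
    (∀ {a b f f'}, (true, a, b) ∈ allp S' → f ∈ fsts S' → f' ∈ fsts S' →
      ¬ Topo.Inter a b f f') := by
  obtain ⟨v0, hv0⟩ := hS.ends _ hv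
  simp only at hv0
  obtain ⟨v1, v', hv1⟩ := List.exists_cons_of_ne_nil (hS.arm_ne_nil hv)
  obtain ⟨u1, u', hu1⟩ := List.exists_cons_of_ne_nil (hS.arm_ne_nil hu)
  simp only at hv1 hu1
  have hvh : v.headI = v1 := by rw [hv1]; rfl
  have huh : u.headI = u1 := by rw [hu1]; rfl
  rw [hvh] at hf
  rw [hvh, huh] at hC
  have hv1f : v1 ∈ fsts S := List.mem_map.2 ⟨_, hv, hvh⟩
  have hu1f : u1 ∈ fsts S := List.mem_map.2 ⟨_, hu, huh⟩
  have hv1p := hS.fst_mem_pts hv1f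
  have hu1p := hS.fst_mem_pts hu1f
  have hyp : pos y ∈ pts S := mem_pts_of hv (by simp [hv0])
  have huv : u1 ≠ v1 := by
    rintro rfl
    exact hne (IsStar.arm_eq hS.nodup hu hv (p := u1) (by simp [hu1]) (by simp [hv1]))
  have hyu : pos y ≠ u1 := by
    intro e
    exact hne (IsStar.arm_eq hS.nodup hu hv (p := u1) (by simp [hu1]) (by simp [hv0, ← e]))
  -- the classification of the pieces
  have cls : ∀ {c p q}, (c, p, q) ∈ allp S' →
      (∃ a b σ, Pc S c a b ∧ |σ| ≤ ε ∧ p = a + σ ∧ q = b - σ) ∨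
      (c = fl v0.length false ∧ ∃ σ, |σ| ≤ ε ∧ p = pos y + σ ∧ q = pos y - σ) ∨
      (c = true ∧ p = v1 - δ ∧ q = u1) := by
    intro c p q h
    rcases hp c p q h with h | h
    · exact Or.inl ⟨p, q, 0, Or.inl h, by simpa using h0.le, by simp, by simp⟩
    · rcases mem_pcs_rr hv0 hv1 hu1 h with ⟨a, b, σ, h1, h2, h3, h4⟩ | ⟨h1, σ, h2, h3, h4⟩ |
        ⟨h1, h2, h3⟩ | h
      · refine Or.inl ⟨a, b, σ, ?_, (h2.trans hδ).le, h3, h4⟩
        exact h1.imp (fun h => mem_allp.2 ⟨_, hv, h⟩) (fun h => mem_allp.2 ⟨_, hv, h⟩)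
      · exact Or.inr (Or.inl ⟨h1, σ, (h2.trans hδ).le, h3, h4⟩)
      · exact Or.inr (Or.inr ⟨h1, h2, h3⟩)
      · exact Or.inl ⟨p, q, 0, Or.inl (mem_allp.2 ⟨_, hu, h⟩), by simpa using h0.le, by simp,
          by simp⟩
  have hδ' : |-δ| ≤ ε := by rw [abs_neg]; exact hδ.le
  have hz : |(0 : ℝ)| ≤ ε := by simpa using h0.le
  have clf : ∀ {f}, f ∈ fsts S' → ∃ g ρ, g ∈ fsts S ∧ |ρ| ≤ ε ∧ f = g + ρ := by
    intro f h
    rcases hf f h with h | h
    · exact ⟨f, 0, h, hz, by simp⟩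
    · exact ⟨v1, δ, hv1f, hδ.le, h⟩
  have neg : ∀ {σ : ℝ}, |σ| ≤ ε → |-σ| ≤ ε := by intro σ h; rwa [abs_neg]
  have AA : ∀ {c a b a' b' σ τ}, Pc S c a b → Pc S c a' b' → |σ| ≤ ε → |τ| ≤ ε →
      ¬ Topo.Inter (a + σ) (b - σ) (a' + τ) (b' - τ) := by
    intro c a b a' b' σ τ h h' hσ hτ
    have hm := IsStar.pc_mem h
    have hm' := IsStar.pc_mem h'
    by_cases hx : a = a' ∨ a = b' ∨ b = a' ∨ b = b'
    · have hd := hε _ hm.1 _ hm.2 (IsStar.pc_ne hS.nodup h)
      rcases IsStar.pc_uniq hS.nodup h h' hx with ⟨rfl, rfl⟩ | ⟨rfl, rfl⟩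
      · exact not_inter_parallel hd hσ hτ
      · rw [inter_swap_right]
        have := not_inter_parallel (τ := -τ) hd hσ (neg hτ)
        simpa [sub_eq_add_neg] using this
    · push Not at hx
      have h1 := (Sepd.inter_iff hε hm.1 hm.2 hm'.1 hm'.2 (IsStar.pc_ne hS.nodup h) hx.1 hx.2.1
        hx.2.2.1 hx.2.2.2 hσ (neg hσ) hτ (neg hτ))
      rw [sub_eq_add_neg, sub_eq_add_neg, h1]
      exact hS.pc_nc h h'
  have AB : ∀ {a b σ τ}, Pc S (fl v0.length false) a b → |σ| ≤ ε → |τ| ≤ ε →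
      ¬ Topo.Inter (pos y + τ) (pos y - τ) (a + σ) (b - σ) := by
    intro a b σ τ h hσ hτ
    have hm := IsStar.pc_mem h
    have hl := IsStar.last_ne hS.nodup hv hv0 h
    rw [sub_eq_add_neg, sub_eq_add_neg]
    exact hε.not_inter_near hyp hm.1 hm.2 hl.1 hl.2 hτ (neg hτ) hσ (neg hσ)
  have AC : ∀ {a b σ}, Pc S true a b → |σ| ≤ ε →
      ¬ Topo.Inter (a + σ) (b - σ) (v1 - δ) u1 := by
    intro a b σ h hσ
    have hm := IsStar.pc_mem h
    have g1 := hS.fst_ne hv1f h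
    have g2 := hS.fst_ne hu1f h
    have h1 := Sepd.inter_iff hε hm.1 hm.2 hv1p hu1p (IsStar.pc_ne hS.nodup h) g1.1.symm
      g2.1.symm g1.2.symm g2.2.symm hσ (neg hσ) hδ' hz
    rw [add_zero] at h1
    rw [sub_eq_add_neg, sub_eq_add_neg, h1]
    exact hS.pc_sep h hv1f hu1f
  have BC : ∀ {τ}, fl v0.length false = true → |τ| ≤ ε →
      ¬ Topo.Inter (pos y + τ) (pos y - τ) (v1 - δ) u1 := by
    intro τ h hτ
    have := hε.not_inter_near hyp hv1p hu1p (hS.last_ne_fst hv hv0 h hv1f) hyu hτ (neg hτ) hδ' hz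
    simpa [sub_eq_add_neg] using this
  constructor
  · intro c a b a' b' h h'
    rcases cls h with ⟨p, q, σ, h1, h2, rfl, rfl⟩ | ⟨h1, σ, h2, rfl, rfl⟩ | ⟨h1, rfl, rfl⟩ <;>
    rcases cls h' with ⟨p', q', τ, g1, g2, rfl, rfl⟩ | ⟨g1, τ, g2, rfl, rfl⟩ | ⟨g1, rfl, rfl⟩
    · exact AA h1 g1 h2 g2
    · rw [inter_comm]; subst g1; exact AB h1 h2 g2
    · subst g1; exact AC h1 h2
    · subst h1; exact AB g1 g2 h2
    · rw [Pst.inter_iff]
      rcases le_total σ 0 with s1 | s1 <;> rcases le_total τ 0 with s2 | s2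
      · rw [min_eq_left (by linarith), max_eq_right (by linarith)]
        rintro (⟨_, _, _ | _⟩ | ⟨_, _, _ | _⟩) <;> linarith
      · rw [min_eq_left (by linarith), max_eq_right (by linarith)]
        rintro (⟨_, _, _ | _⟩ | ⟨_, _, _ | _⟩) <;> linarith
      · rw [min_eq_right (by linarith), max_eq_left (by linarith)]
        rintro (⟨_, _, _ | _⟩ | ⟨_, _, _ | _⟩) <;> linarith
      · rw [min_eq_right (by linarith), max_eq_left (by linarith)]
        rintro (⟨_, _, _ | _⟩ | ⟨_, _, _ | _⟩) <;> linarith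
    · exact BC (h1 ▸ g1) h2
    · rw [inter_comm]; subst h1; exact AC g1 g2
    · rw [inter_comm]; exact BC (g1 ▸ h1) g2
    · exact not_inter_self
  · intro a b f f' h hf1 hf2
    rcases cls h with ⟨p, q, σ, h1, h2, rfl, rfl⟩ | ⟨h1, σ, h2, rfl, rfl⟩ | ⟨h1, rfl, rfl⟩
    · obtain ⟨g, ρ, hg, hρ, rfl⟩ := clf hf1
      obtain ⟨g', ρ', hg', hρ', rfl⟩ := clf hf2
      have hm := IsStar.pc_mem h1
      have n1 := hS.fst_ne hg h1
      have n2 := hS.fst_ne hg' h1
      have hgp := hS.fst_mem_pts hg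
      have hgp' := hS.fst_mem_pts hg'
      rw [sub_eq_add_neg]
      by_cases e : g = g'
      · subst e
        rw [inter_comm]
        exact hε.not_inter_near hgp hm.1 hm.2 n1.1 n1.2 hρ hρ' h2 (neg h2)
      · rw [Sepd.inter_iff hε hm.1 hm.2 hgp hgp' (IsStar.pc_ne hS.nodup h1) n1.1.symm
          n2.1.symm n1.2.symm n2.2.symm h2 (neg h2) hρ hρ']
        exact hS.pc_sep h1 hg hg'
    · obtain ⟨g, ρ, hg, hρ, rfl⟩ := clf hf1
      obtain ⟨g', ρ', hg', hρ', rfl⟩ := clf hf2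
      rw [sub_eq_add_neg]
      exact hε.not_inter_near hyp (hS.fst_mem_pts hg) (hS.fst_mem_pts hg')
        (hS.last_ne_fst hv hv0 h1.symm hg) (hS.last_ne_fst hv hv0 h1.symm hg') h2 (neg h2) hρ hρ'
    · exact hC f hf1 f' hf2

end Vale.Agent.P040.Pst
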