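import Vale.Agent.P040.H105.Tw

/-!
# The tuples of the rerouted stars; Hurwitz paths are realised
-/

namespace Vale.Agent.P040.Pst

open Topo FreeGroup

variable {ι : Type*} {Γ : Type*} {pos : ι → ℝ}

lemma cl_not (d : Bool) (g : Γ) : cl (!d) g = (cl d g)⁻¹ := by cases d <;> simp [cl]

lemma wd_append (G : Gaps pos Γ) (d : Bool) (l l' : List ℝ) :
    wd G d (l ++ l') = wd G d l * wd G (fl l.length d) l' := by
  induction l generalizing d with
  | nil => simp [wd, fl]
  | cons a l ih => simp [wd, ih, fl, mul_assoc]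

lemma wd_reverse (G : Gaps pos Γ) (d : Bool) (l : List ℝ) :
    wd G (fl l.length d) l.reverse = (wd G d l)⁻¹ := by
  induction l generalizing d with
  | nil => simp [wd]
  | cons a l ih =>
    have e : fl (a :: l).length d = fl l.length (!d) := rfl
    rw [List.reverse_cons, wd_append, e, ih, List.length_reverse, fl_fl, wd]
    simp [wd, cl_not]

lemma sg_eq (n : ℕ) (δ : ℝ) : sg n δ = if fl n true then δ else -δ := by
  induction n with
  | zero => simp [fl]
  | succ n ih =>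
    rw [sg_succ, sg_neg, ih, fl_succ]
    cases fl n true <;> simp

/-- the letters of a copy away from the leaves -/
lemma wd_sh (G : Gaps pos Γ) {δ : ℝ} {l : List ℝ}
    (h : ∀ p ∈ l, ∀ σ, |σ| ≤ |δ| → G.gap (p + σ) = G.gap p) (d : Bool) :
    wd G d (sh δ l) = wd G d l := by
  induction l generalizing δ d with
  | nil => rfl
  | cons a l ih =>
    rw [sh_cons, wd, wd, h a (by simp) δ le_rfl,
      ih (fun p hp σ hσ => h p (by simp [hp]) σ (by rwa [abs_neg] at hσ))]

section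

variable {S : List (ι × List ℝ)}

lemma IsStar.leaf_mem (hS : IsStar pos S) (x : ι) : pos x ∈ pts S := by
  obtain ⟨q, hq, rfl⟩ := List.mem_map.1 (hS.full x)
  obtain ⟨l, hl⟩ := hS.ends q hq
  exact mem_pts_of hq (by rw [hl]; simp)

/-- inner points of the arms are not leaves -/
lemma IsStar.inner_ne (hS : IsStar pos S) {q : ι × List ℝ} (hq : q ∈ S) {l : List ℝ}
    (hl : q.2 = l ++ [pos q.1]) {p : ℝ} (hp : p ∈ l) (x : ι) : p ≠ pos x := by
  intro e
  obtain ⟨q', hq', rfl⟩ := List.mem_map.1 (hS.full x)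
  obtain ⟨l', hl'⟩ := hS.ends q' hq'
  have := IsStar.arm_eq hS.nodup hq hq' (p := p) (by rw [hl]; simp [hp]) (by rw [hl', e]; simp)
  subst this
  have hn := IsStar.arm_nodup hS.nodup hq
  rw [hl] at hn
  exact (List.nodup_append'.1 hn).2.2 hp (by rw [e]; simp)

lemma IsStar.gap_const (hS : IsStar pos S) (G : Gaps pos Γ) {ε : ℝ} (hε : Sepd ε (pts S))
    {q : ι × List ℝ} (hq : q ∈ S) {l : List ℝ} (hl : q.2 = l ++ [pos q.1]) {p : ℝ} (hp : p ∈ l)
    {σ : ℝ} (hσ : |σ| ≤ ε) : G.gap (p + σ) = G.gap p := by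
  have hpp : p ∈ pts S := mem_pts_of hq (by rw [hl]; simp [hp])
  have h1 := abs_le.1 hσ
  have h2 : ∀ x, p < pos x → p + 3 * ε < pos x := fun x h => hε.lt hpp (hS.leaf_mem x) h
  have h3 : ∀ x, pos x < p → pos x + 3 * ε < p := fun x h => hε.lt (hS.leaf_mem x) hpp h
  have h4 := hS.inner_ne hq hl hp
  rcases le_total 0 σ with h | h
  · refine (G.const p (p + σ) (by linarith) fun x hx => ?_).symm
    rcases lt_or_gt_of_ne (h4 x) with h5 | h5
    · have := h2 x h5
      linarith [hx.2]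
    · linarith [hx.1]
  · refine G.const (p + σ) p (by linarith) fun x hx => ?_
    rcases lt_or_gt_of_ne (h4 x) with h5 | h5
    · linarith [hx.2]
    · have := h3 x h5
      linarith [hx.1]

lemma IsStar.gap_rt (hS : IsStar pos S) (G : Gaps pos Γ) {ε σ : ℝ} (hε : Sepd ε (pts S))
    (h0 : 0 < σ) (hσ : σ ≤ ε) (x : ι) : G.gap (pos x + σ) = G.rt x := by
  refine G.right x _ (by linarith) fun z hz => ?_
  have := hε.lt (hS.leaf_mem x) (hS.leaf_mem z) hz.1
  linarith [hz.2]

lemma IsStar.gap_lt (hS : IsStar pos S) (G : Gaps pos Γ) {ε σ : ℝ} (hε : Sepd ε (pts S))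
    (h0 : 0 < σ) (hσ : σ ≤ ε) (x : ι) : G.gap (pos x - σ) = G.lt x := by
  refine G.left x _ (by linarith) fun z hz => ?_
  have := hε.lt (hS.leaf_mem z) (hS.leaf_mem x) hz.2
  linarith [hz.1]

/-- the word of the way along a copy and back along the other copy -/
lemma IsStar.wd_around (hS : IsStar pos S) (G : Gaps pos Γ) {ε : ℝ} (hε : Sepd ε (pts S))
    (h0 : 0 < ε) {q : ι × List ℝ} (hq : q ∈ S) :
    wd G true (sh ε q.2) * (wd G true (sh (-ε) q.2))⁻¹ = (lp G q.1 q.2)⁻¹ := by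
  obtain ⟨l, hl⟩ := hS.ends q hq
  have hz : |ε| = ε := abs_of_pos h0
  have e1 : ∀ δ, |δ| = ε → wd G true (sh δ q.2) =
      wd G true l * cl (fl l.length true) (G.gap (pos q.1 + sg l.length δ)) := by
    intro δ hδ
    rw [hl, sh_append, wd_append, sh_length]
    congr 1
    · exact wd_sh G (fun p hp σ hσ => hS.gap_const G hε hq hl hp (hσ.trans hδ.le)) true
    · simp [wd]
  have e2 : q.2.dropLast = l := by rw [hl]; simp
  rw [e1 ε hz, e1 (-ε) (by rw [abs_neg, hz]), lp, e2, sg_eq, sg_eq]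
  cases h : fl l.length true
  · simp only [cl, tip, if_false, Bool.false_eq_true, neg_neg]
    rw [hS.gap_rt G hε h0 le_rfl, ← sub_eq_add_neg, hS.gap_lt G hε h0 le_rfl]
    group
  · simp only [cl, tip, if_true]
    rw [hS.gap_rt G hε h0 le_rfl, ← sub_eq_add_neg, hS.gap_lt G hε h0 le_rfl]
    group

lemma lp_rr (G : Gaps pos Γ) {δ : ℝ} {v u : List ℝ} (hu : u ≠ []) (x : ι) :
    lp G x (rr δ v u) = (wd G true (sh δ v) * (wd G true (sh (-δ) v))⁻¹) * lp G x u *
      (wd G true (sh δ v) * (wd G true (sh (-δ) v))⁻¹)⁻¹ := by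
  have e1 : (rr δ v u).dropLast = sh δ v ++ ((sh (-δ) v).reverse ++ u.dropLast) := by
    rw [rr, List.dropLast_append_of_ne_nil (by simp [hu]),
      List.dropLast_append_of_ne_nil hu]
  have e2 : fl (sh δ v ++ ((sh (-δ) v).reverse ++ u.dropLast)).length true =
      fl u.dropLast.length true := by
    simp only [List.length_append, List.length_reverse, sh_length]
    rw [fl_add, fl_add, fl_fl]
  have e3 : wd G true (sh δ v ++ ((sh (-δ) v).reverse ++ u.dropLast)) =
      wd G true (sh δ v) * (wd G true (sh (-δ) v))⁻¹ * wd G true u.dropLast := by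
    rw [wd_append, wd_append, sh_length]
    have h1 : fl (sh (-δ) v).reverse.length (fl v.length true) = true := by
      rw [List.length_reverse, sh_length, fl_fl]
    have h2 : wd G (fl v.length true) (sh (-δ) v).reverse = (wd G true (sh (-δ) v))⁻¹ := by
      have := wd_reverse G true (sh (-δ) v)
      rwa [sh_length] at this
    rw [h1, h2, mul_assoc]
  rw [lp, lp, e1, e2, e3]
  group

end

/-- the tuple after rerouting `x` around `y` -/
theorem IsStar.tup_tw' (G : Gaps pos Γ) {x y : ι} {u v : List ℝ} {R : List (ι × List ℝ)}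
    (hS : IsStar pos ((x, u) :: (y, v) :: R)) {ε : ℝ} (h0 : 0 < ε)
    (hε : Sepd ε (pts ((x, u) :: (y, v) :: R))) :
    tup G ((y, v) :: (x, rr ε v u) :: R) =
      (y, lp G y v) :: (x, (lp G y v)⁻¹ * lp G x u * lp G y v) :: tup G R := by
  have hnu : u ≠ [] := hS.arm_ne_nil (q := (x, u)) (by simp)
  have h := hS.wd_around G hε h0 (q := (y, v)) (by simp)
  simp only [tup, List.map_cons]
  rw [lp_rr G hnu, h]
  simp

/-- the tuple after rerouting `y` around `x` -/
theorem IsStar.tup_tw (G : Gaps pos Γ) {x y : ι} {u v : List ℝ} {R : List (ι × List ℝ)}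
    (hS : IsStar pos ((x, v) :: (y, u) :: R)) {ε : ℝ} (h0 : 0 < ε)
    (hε : Sepd ε (pts ((x, v) :: (y, u) :: R))) :
    tup G ((y, rr (-ε) v u) :: (x, v) :: R) =
      (y, lp G x v * lp G y u * (lp G x v)⁻¹) :: (x, lp G x v) :: tup G R := by
  have hnu : u ≠ [] := hS.arm_ne_nil (q := (y, u)) (by simp)
  have h := hS.wd_around G hε h0 (q := (x, v)) (by simp)
  have h' : wd G true (sh (-ε) v) * (wd G true (sh ε v))⁻¹ = lp G x v := by
    have := congrArg (·⁻¹) h
    simpa using this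
  simp only [tup, List.map_cons]
  rw [lp_rr G hnu, neg_neg, h']

/-- paths of stars: `n` half twists, rotations of the list of arms are free -/
inductive SPath : ℕ → List (ι × List ℝ) → List (ι × List ℝ) → Prop
  | refl (S : List (ι × List ℝ)) : SPath 0 S S
  | rot {n : ℕ} {p : ι × List ℝ} {S S' : List (ι × List ℝ)} :
      SPath n (S ++ [p]) S' → SPath n (p :: S) S'
  | tw {n : ℕ} {x y : ι} {v u : List ℝ} {R S' : List (ι × List ℝ)} {ε : ℝ} :
      0 < ε → Sepd ε (pts ((x, v) :: (y, u) :: R)) →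
      SPath n ((y, rr (-ε) v u) :: (x, v) :: R) S' → SPath (n + 1) ((x, v) :: (y, u) :: R) S'
  | tw' {n : ℕ} {x y : ι} {v u : List ℝ} {R S' : List (ι × List ℝ)} {ε : ℝ} :
      0 < ε → Sepd ε (pts ((x, u) :: (y, v) :: R)) →
      SPath n ((y, v) :: (x, rr ε v u) :: R) S' → SPath (n + 1) ((x, u) :: (y, v) :: R) S'

/-- **REAL.** Hurwitz paths of tuples are realised by planar stars. -/
theorem IsStar.real (G : Gaps pos Γ) {n : ℕ} {S : List (ι × List ℝ)}
    {L' : List (ι × FreeGroup Γ)} (hS : IsStar pos S) (h : Hz.HzPath n (tup G S) L') :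
    ∃ S', IsStar pos S' ∧ tup G S' = L' ∧ SPath n S S' := by
  generalize hL : tup G S = L at h
  induction h generalizing S with
  | refl L => exact ⟨S, hS, hL, SPath.refl S⟩
  | @rot n L p L' _ ih =>
    cases S with
    | nil => simp [tup] at hL
    | cons q S =>
      simp only [tup, List.map_cons, List.cons.injEq] at hL
      obtain ⟨S', h1, h2, h3⟩ := ih hS.rot (by simp [tup, hL.1, hL.2])
      exact ⟨S', h1, h2, SPath.rot h3⟩
  | @tw n x g y k R L' _ ih =>
    rcases S with _ | ⟨⟨x', v⟩, _ | ⟨⟨y', u⟩, R'⟩⟩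
    · simp [tup] at hL
    · simp [tup] at hL
    · simp only [tup, List.map_cons, List.cons.injEq, Prod.mk.injEq] at hL
      obtain ⟨⟨rfl, rfl⟩, ⟨rfl, rfl⟩, rfl⟩ := hL
      obtain ⟨ε, h0, hε⟩ := exists_sepd (pts ((x', v) :: (y', u) :: R'))
      obtain ⟨S', h1, h2, h3⟩ := ih (hS.tw h0 hε) (hS.tup_tw G h0 hε)
      exact ⟨S', h1, h2, SPath.tw h0 hε h3⟩
  | @tw' n x g y k R L' _ ih =>
    rcases S with _ | ⟨⟨x', u⟩, _ | ⟨⟨y', v⟩, R'⟩⟩
    · simp [tup] at hL
    · simp [tup] at hL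
    · simp only [tup, List.map_cons, List.cons.injEq, Prod.mk.injEq] at hL
      obtain ⟨⟨rfl, rfl⟩, ⟨rfl, rfl⟩, rfl⟩ := hL
      obtain ⟨ε, h0, hε⟩ := exists_sepd (pts ((x', u) :: (y', v) :: R'))
      obtain ⟨S', h1, h2, h3⟩ := ih (hS.tw' h0 hε) (hS.tup_tw' G h0 hε)
      exact ⟨S', h1, h2, SPath.tw' h0 hε h3⟩

end Vale.Agent.P040.Pst
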