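import Vale.Agent.P040.H105.Real

/-!
# Half twists of planar star diagrams

The two rerouted stars are stars; their tuples are the Hurwitz moves of the tuple; every Hurwitz
path of tuples is realised by stars.
-/

namespace Vale.Agent.P040.Pst

open Topo

variable {ι : Type*}

/-! ### distinctness -/

lemma sh_disj_other {δ : ℝ} {v W L : List ℝ} (hs : Sepd |δ| L) (hv : ∀ p ∈ v, p ∈ L)
    (hW : ∀ p ∈ W, p ∈ L) (hd : List.Disjoint v W) : List.Disjoint (sh δ v) W := by
  intro p hp hq
  obtain ⟨a, ha, σ, hσ, rfl⟩ := mem_sh hp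
  have hne : a ≠ a + σ := fun e => hd ha (e ▸ hq)
  have := hs a (hv a ha) (a + σ) (hW _ hq) hne
  rw [show a - (a + σ) = -σ by ring, abs_neg, hσ] at this
  linarith [abs_nonneg δ]

lemma sh_disj_self {δ : ℝ} {v : List ℝ} (hs : Sepd |δ| v) (h0 : 0 < |δ|) :
    List.Disjoint (sh δ v) v := by
  intro p hp hq
  obtain ⟨a, ha, σ, hσ, rfl⟩ := mem_sh hp
  have hne : a ≠ a + σ := by
    intro e
    have : σ = 0 := by linarith
    rw [this, abs_zero] at hσ
    linarith
  have := hs a ha (a + σ) hq hne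
  rw [show a - (a + σ) = -σ by ring, abs_neg, hσ] at this
  linarith [abs_nonneg δ]

lemma sh_head_not_mem {δ δ' a : ℝ} {t : List ℝ} (hs : Sepd |δ| (a :: t)) (hn : a ∉ t)
    (hd : |δ'| = |δ|) : a + δ ∉ sh δ' t := by
  intro h
  obtain ⟨b, hb, σ, hσ, e⟩ := mem_sh h
  exact Sepd.ne hs (by simp) (List.mem_cons_of_mem _ hb) (fun e => hn (by rw [e]; exact hb)) le_rfl
    (hσ.trans hd).le e

lemma sh_nodup {δ : ℝ} {v : List ℝ} (hs : Sepd |δ| v) (hn : v.Nodup) : (sh δ v).Nodup := by
  induction v generalizing δ with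
  | nil => simp
  | cons a t ih =>
    rw [List.nodup_cons] at hn
    rw [sh_cons, List.nodup_cons]
    refine ⟨sh_head_not_mem hs hn.1 (abs_neg δ), ih ?_ hn.2⟩
    rw [abs_neg]
    exact hs.mono fun p hp => List.mem_cons_of_mem _ hp

lemma sh_disj_neg {δ : ℝ} {v : List ℝ} (hs : Sepd |δ| v) (h0 : 0 < |δ|) (hn : v.Nodup) :
    List.Disjoint (sh δ v) (sh (-δ) v) := by
  induction v generalizing δ with
  | nil => simp
  | cons a t ih =>
    rw [List.nodup_cons] at hn
    have hs' : Sepd |-δ| (a :: t) := by rwa [abs_neg]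
    have h1 := ih (δ := -δ) (by rw [abs_neg]; exact hs.mono fun p hp => List.mem_cons_of_mem _ hp)
      (by rwa [abs_neg]) hn.2
    rw [sh_cons, sh_cons]
    rw [List.disjoint_cons_left, List.disjoint_cons_right]
    refine ⟨?_, ?_, h1⟩
    · intro h
      rcases List.mem_cons.1 h with h | h
      · have : δ = 0 := by linarith
        rw [this, abs_zero] at h0
        exact lt_irrefl _ h0
      · rw [neg_neg] at h
        exact sh_head_not_mem hs hn.1 rfl h
    · exact sh_head_not_mem hs' hn.1 rfl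

lemma nodup_rr {δ : ℝ} {v u W : List ℝ} (hn : (v ++ (u ++ W)).Nodup)
    (hs : Sepd |δ| (v ++ (u ++ W))) (h0 : 0 < |δ|) : (v ++ (rr δ v u ++ W)).Nodup := by
  have hv : ∀ p ∈ v, p ∈ v ++ (u ++ W) := fun p hp => List.mem_append_left _ hp
  have hO : ∀ p ∈ u ++ W, p ∈ v ++ (u ++ W) := fun p hp => List.mem_append_right _ hp
  obtain ⟨n1, n2, n3⟩ := List.nodup_append'.1 hn
  have s1 : Sepd |δ| v := hs.mono hv
  have s2 : Sepd |-δ| v := by rwa [abs_neg]
  have s3 : Sepd |-δ| (v ++ (u ++ W)) := by rwa [abs_neg]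
  have h0' : 0 < |-δ| := by rwa [abs_neg]
  have e : v ++ (rr δ v u ++ W) = v ++ (sh δ v ++ ((sh (-δ) v).reverse ++ (u ++ W))) := by
    simp [rr]
  rw [e]
  have d1 : List.Disjoint (sh δ v) (u ++ W) := sh_disj_other hs hv hO n3
  have d2 : List.Disjoint (sh (-δ) v) (u ++ W) := sh_disj_other s3 hv hO n3
  have m1 : ((sh (-δ) v).reverse ++ (u ++ W)).Nodup := by
    refine List.nodup_append'.2 ⟨List.nodup_reverse.2 (sh_nodup s2 n1), n2, ?_⟩
    intro p hp hq
    exact d2 (List.mem_reverse.1 hp) hq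
  have m2 : (sh δ v ++ ((sh (-δ) v).reverse ++ (u ++ W))).Nodup := by
    refine List.nodup_append'.2 ⟨sh_nodup s1 n1, m1, ?_⟩
    intro p hp hq
    rcases List.mem_append.1 hq with hq | hq
    · exact sh_disj_neg s1 h0 n1 hp (List.mem_reverse.1 hq)
    · exact d1 hp hq
  refine List.nodup_append'.2 ⟨n1, m2, ?_⟩
  intro p hp hq
  rcases List.mem_append.1 hq with hq | hq
  · exact sh_disj_self s1 h0 hq hp
  · rcases List.mem_append.1 hq with hq | hq
    · exact sh_disj_self s2 h0' (List.mem_reverse.1 hq) hp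
    · exact n3 hp hq

/-! ### cyclic order -/

/-- the cyclic order condition -/
def Cyc (f : List ℝ) : Prop := ∃ l₁ l₂, f = l₂ ++ l₁ ∧ (l₁ ++ l₂).Pairwise (· < ·)

lemma Cyc.cases {a b : ℝ} {r : List ℝ} (h : Cyc (a :: b :: r)) :
    (a :: b :: r).Pairwise (· < ·) ∨ (b :: r ++ [a]).Pairwise (· < ·) ∨
      ∃ r₁ r₂, r = r₂ ++ r₁ ∧ (r₁ ++ a :: b :: r₂).Pairwise (· < ·) := by
  obtain ⟨l₁, l₂, h1, h2⟩ := h
  cases l₂ with
  | nil => left; rw [h1]; simpa using h2
  | cons c l₂ =>
    simp only [List.cons_append, List.cons.injEq] at h1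
    obtain ⟨rfl, h1⟩ := h1
    cases l₂ with
    | nil =>
      simp only [List.nil_append] at h1
      subst h1
      exact Or.inr (Or.inl h2)
    | cons d l₂ =>
      simp only [List.cons_append, List.cons.injEq] at h1
      obtain ⟨rfl, h1⟩ := h1
      exact Or.inr (Or.inr ⟨l₁, l₂, h1, h2⟩)

lemma Cyc.adj {a b : ℝ} {r : List ℝ} (hc : Cyc (a :: b :: r)) :
    (a < b ∧ ∀ f ∈ r, f < a ∨ b < f) ∨ (b < a ∧ ∀ f ∈ r, b < f ∧ f < a) := by
  rcases hc.cases with h | h | ⟨r₁, r₂, rfl, h⟩
  · simp only [List.pairwise_cons, List.mem_cons] at h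
    exact Or.inl ⟨h.1 b (Or.inl rfl), fun f hf => Or.inr (h.2.1 f hf)⟩
  · rw [List.cons_append, List.pairwise_cons] at h
    rw [List.pairwise_append] at h
    exact Or.inr ⟨h.1 a (by simp), fun f hf => ⟨h.1 f (by simp [hf]), h.2.2.2 f hf a (by simp)⟩⟩
  · rw [List.pairwise_append] at h
    obtain ⟨-, h1, h2⟩ := h
    simp only [List.pairwise_cons, List.mem_cons] at h1
    refine Or.inl ⟨h1.1 b (Or.inl rfl), fun f hf => ?_⟩
    rcases List.mem_append.1 hf with hf | hf
    · exact Or.inr (h1.2.1 f hf)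
    · exact Or.inl (h2 f hf a (by simp))

lemma not_inter_out {a b c d : ℝ} (hc : ¬ (min a b < c ∧ c < max a b))
    (hd : ¬ (min a b < d ∧ d < max a b)) : ¬ Topo.Inter a b c d := by
  rw [Pst.inter_iff]
  rintro (⟨h1, h2, -⟩ | ⟨h1, h2, -⟩)
  · exact hc ⟨h1, h2⟩
  · exact hd ⟨h1, h2⟩

lemma not_inter_in {a b c d : ℝ} (hc : min a b < c ∧ c < max a b)
    (hd : min a b < d ∧ d < max a b) : ¬ Topo.Inter a b c d := by
  rw [Pst.inter_iff]
  rintro (⟨-, -, h | h⟩ | ⟨-, -, h | h⟩)
  · exact lt_asymm h hd.1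
  · exact lt_asymm h hd.2
  · exact lt_asymm h hc.1
  · exact lt_asymm h hc.2

/-- replace `a, b` by `b, b + ε` -/
lemma Cyc.tw' {a b ε : ℝ} {r : List ℝ} (hc : Cyc (a :: b :: r)) (h0 : 0 < ε)
    (hs : ∀ f ∈ r, b < f → b + ε < f) : Cyc (b :: (b + ε) :: r) := by
  rcases hc.cases with h | h | ⟨r₁, r₂, rfl, h⟩
  · refine ⟨b :: (b + ε) :: r, [], by simp, ?_⟩
    simp only [List.append_nil, List.pairwise_cons, List.mem_cons] at h ⊢
    refine ⟨?_, fun f hf => hs f hf (h.2.1 f hf), h.2.2⟩
    rintro f (rfl | hf)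
    · linarith
    · exact h.2.1 f hf
  · refine ⟨b :: (b + ε) :: r, [], by simp, ?_⟩
    rw [List.cons_append, List.pairwise_cons, List.pairwise_append] at h
    simp only [List.append_nil, List.pairwise_cons, List.mem_cons]
    refine ⟨?_, fun f hf => hs f hf (h.1 f (by simp [hf])), h.2.1⟩
    rintro f (rfl | hf)
    · linarith
    · exact h.1 f (by simp [hf])
  · refine ⟨r₁, b :: (b + ε) :: r₂, by simp, ?_⟩
    rw [List.pairwise_append] at h ⊢
    obtain ⟨h1, h2, h3⟩ := h
    simp only [List.pairwise_cons, List.mem_cons] at h2 ⊢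
    refine ⟨h1, ⟨?_, fun f hf => hs f (by simp [hf]) (h2.2.1 f hf), h2.2.2⟩, ?_⟩
    · rintro f (rfl | hf)
      · linarith
      · exact h2.2.1 f hf
    · rintro p hp f (rfl | rfl | hf)
      · exact h3 p hp _ (by simp)
      · have := h3 p hp b (by simp)
        linarith
      · exact h3 p hp _ (by simp [hf])

/-- replace `a, b` by `a - ε, a` -/
lemma Cyc.tw {a b ε : ℝ} {r : List ℝ} (hc : Cyc (a :: b :: r)) (h0 : 0 < ε)
    (hs : ∀ f ∈ r, f < a → f < a - ε) : Cyc ((a - ε) :: a :: r) := by
  rcases hc.cases with h | h | ⟨r₁, r₂, rfl, h⟩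
  · refine ⟨(a - ε) :: a :: r, [], by simp, ?_⟩
    simp only [List.append_nil, List.pairwise_cons, List.mem_cons] at h ⊢
    refine ⟨?_, fun f hf => h.1 f (Or.inr hf), h.2.2⟩
    rintro f (rfl | hf)
    · linarith
    · have := h.1 f (Or.inr hf)
      linarith
  · refine ⟨r, [a - ε, a], by simp, ?_⟩
    rw [List.cons_append, List.pairwise_cons, List.pairwise_append] at h
    rw [List.pairwise_append]
    refine ⟨h.2.1, by simp; linarith, ?_⟩
    intro p hp f hf
    have h1 := h.2.2.2 p hp a (by simp)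
    simp only [List.mem_cons, List.not_mem_nil, or_false] at hf
    rcases hf with rfl | rfl
    · exact hs p hp h1
    · exact h1
  · refine ⟨r₁, (a - ε) :: a :: r₂, by simp, ?_⟩
    rw [List.pairwise_append] at h ⊢
    obtain ⟨h1, h2, h3⟩ := h
    simp only [List.pairwise_cons, List.mem_cons] at h2 ⊢
    refine ⟨h1, ⟨?_, fun f hf => h2.1 f (Or.inr hf), h2.2.2⟩, ?_⟩
    · rintro f (rfl | hf)
      · linarith
      · have := h2.1 f (Or.inr hf)
        linarith
    · rintro p hp f (rfl | rfl | hf)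
      · exact hs p (by simp [hp]) (h3 p hp a (by simp))
      · exact h3 p hp _ (by simp)
      · exact h3 p hp _ (by simp [hf])

/-! ### the two half twists -/

variable {pos : ι → ℝ}

lemma rr_headI {δ : ℝ} {v u : List ℝ} (hv : v ≠ []) : (rr δ v u).headI = v.headI + δ := by
  obtain ⟨a, t, rfl⟩ := List.exists_cons_of_ne_nil hv
  simp [rr]

/-- `x` is rerouted around `y` -/
theorem IsStar.tw' {x y : ι} {u v : List ℝ} {R : List (ι × List ℝ)}
    (hS : IsStar pos ((x, u) :: (y, v) :: R)) {ε : ℝ} (h0 : 0 < ε)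
    (hε : Sepd ε (pts ((x, u) :: (y, v) :: R))) :
    IsStar pos ((y, v) :: (x, rr ε v u) :: R) := by
  have hu : (x, u) ∈ (x, u) :: (y, v) :: R := by simp
  have hv : (y, v) ∈ (x, u) :: (y, v) :: R := by simp
  have hnu := hS.arm_ne_nil hu
  have hnv := hS.arm_ne_nil hv
  simp only at hnu hnv
  have hδ : |ε| = ε := abs_of_pos h0
  have hn := hS.nodup
  have hpe : pts ((x, u) :: (y, v) :: R) = u ++ (v ++ pts R) := by simp [pts]
  rw [hpe] at hn
  have hperm : (u ++ (v ++ pts R)).Perm (v ++ (u ++ pts R)) := by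
    rw [← List.append_assoc, ← List.append_assoc]
    exact List.Perm.append_right _ List.perm_append_comm
  have hne : (x, u) ≠ (y, v) := by
    intro e
    have e2 : u = v := congrArg Prod.snd e
    subst e2
    obtain ⟨a, t, rfl⟩ := List.exists_cons_of_ne_nil hnu
    have hd := (List.nodup_append'.1 hn).2.2
    exact hd (show a ∈ a :: t by simp) (by simp)
  have hcyc : Cyc (u.headI :: v.headI :: fsts R) := by
    have := hS.cyc
    simpa [Cyc, fsts] using this
  have hvp : v.headI ∈ pts ((x, u) :: (y, v) :: R) :=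
    hS.fst_mem_pts (by simp [fsts])
  have hup : u.headI ∈ pts ((x, u) :: (y, v) :: R) :=
    hS.fst_mem_pts (by simp [fsts])
  have hrp : ∀ f ∈ fsts R, f ∈ pts ((x, u) :: (y, v) :: R) := fun f hf =>
    hS.fst_mem_pts (by simp only [fsts, List.map_cons, List.mem_cons]; exact Or.inr (Or.inr hf))
  have hf' : ∀ f ∈ fsts ((y, v) :: (x, rr ε v u) :: R), f = v.headI ∨ f = v.headI + ε ∨
      f ∈ fsts R := by
    intro f hf
    simpa [fsts, rr_headI hnv] using hf
  have hC : ∀ f ∈ fsts ((y, v) :: (x, rr ε v u) :: R), ∀ f' ∈ fsts ((y, v) :: (x, rr ε v u) :: R),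
      ¬ Topo.Inter (v.headI - ε) u.headI f f' := by
    rcases hcyc.adj with ⟨h1, h2⟩ | ⟨h1, h2⟩
    · have h3 := hε.lt hup hvp h1
      have out : ∀ f ∈ fsts ((y, v) :: (x, rr ε v u) :: R),
          ¬ (min (v.headI - ε) u.headI < f ∧ f < max (v.headI - ε) u.headI) := by
        intro f hf
        rw [min_eq_right (by linarith), max_eq_left (by linarith)]
        rintro ⟨g1, g2⟩
        rcases hf' f hf with rfl | rfl | hf
        · linarith
        · linarith
        · rcases h2 f hf with h | h <;> linarith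
      exact fun f hf f' hf2 => not_inter_out (out f hf) (out f' hf2)
    · have h3 := hε.lt hvp hup h1
      have inn : ∀ f ∈ fsts ((y, v) :: (x, rr ε v u) :: R),
          (min (v.headI - ε) u.headI < f ∧ f < max (v.headI - ε) u.headI) := by
        intro f hf
        rw [min_eq_left (by linarith), max_eq_right (by linarith)]
        rcases hf' f hf with rfl | rfl | hf
        · constructor <;> linarith
        · constructor <;> linarith
        · have := h2 f hf
          constructor <;> linarith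
      exact fun f hf f' hf2 => not_inter_in (inn f hf) (inn f' hf2)
  have hcore := core hS hu hv hne hε h0 hδ (S' := (y, v) :: (x, rr ε v u) :: R)
    (by
      intro c a b h
      simp only [allp, List.flatMap_cons, List.mem_append] at h ⊢
      tauto)
    (by
      intro f hf
      rcases hf' f hf with h | h | h
      · left; rw [h]; simp [fsts]
      · right; exact h
      · left; simp only [fsts, List.map_cons, List.mem_cons]; exact Or.inr (Or.inr h))
    hC
  refine ⟨?_, ?_, ?_, fun h h' => hcore.1 h h', fun h h1 h2 => hcore.2 h h1 h2, ?_⟩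
  · intro q hq
    simp only [List.mem_cons] at hq
    rcases hq with rfl | rfl | hq
    · exact hS.ends _ hv
    · obtain ⟨l, hl⟩ := hS.ends _ hu
      simp only at hl
      exact ⟨sh ε v ++ ((sh (-ε) v).reverse ++ l), by simp [rr, hl]⟩
    · exact hS.ends q (by simp [hq])
  · intro z
    have := hS.full z
    simp only [List.map_cons, List.mem_cons] at this ⊢
    tauto
  · have hpe' : pts ((y, v) :: (x, rr ε v u) :: R) = v ++ (rr ε v u ++ pts R) := by simp [pts]
    rw [hpe']
    refine nodup_rr (hperm.nodup_iff.1 hn) ?_ (by rw [hδ]; exact h0)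
    rw [hδ]
    exact hε.mono fun p hp => by rw [hpe]; exact hperm.mem_iff.2 hp
  · have := hcyc.tw' h0 (fun f hf hlt => by have := hε.lt hvp (hrp f hf) hlt; linarith)
    simpa [Cyc, fsts, rr_headI hnv] using this

/-- `y` is rerouted around `x` -/
theorem IsStar.tw {x y : ι} {u v : List ℝ} {R : List (ι × List ℝ)}
    (hS : IsStar pos ((x, v) :: (y, u) :: R)) {ε : ℝ} (h0 : 0 < ε)
    (hε : Sepd ε (pts ((x, v) :: (y, u) :: R))) :
    IsStar pos ((y, rr (-ε) v u) :: (x, v) :: R) := by
  have hu : (y, u) ∈ (x, v) :: (y, u) :: R := by simp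
  have hv : (x, v) ∈ (x, v) :: (y, u) :: R := by simp
  have hnu := hS.arm_ne_nil hu
  have hnv := hS.arm_ne_nil hv
  simp only at hnu hnv
  have hδ : |-ε| = ε := by rw [abs_neg]; exact abs_of_pos h0
  have hn := hS.nodup
  have hpe : pts ((x, v) :: (y, u) :: R) = v ++ (u ++ pts R) := by simp [pts]
  rw [hpe] at hn
  have hne : (y, u) ≠ (x, v) := by
    intro e
    have e2 : u = v := congrArg Prod.snd e
    subst e2
    obtain ⟨a, t, rfl⟩ := List.exists_cons_of_ne_nil hnu
    have hd := (List.nodup_append'.1 hn).2.2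
    exact hd (show a ∈ a :: t by simp) (by simp)
  have hcyc : Cyc (v.headI :: u.headI :: fsts R) := by
    have := hS.cyc
    simpa [Cyc, fsts] using this
  have hvp : v.headI ∈ pts ((x, v) :: (y, u) :: R) :=
    hS.fst_mem_pts (by simp [fsts])
  have hup : u.headI ∈ pts ((x, v) :: (y, u) :: R) :=
    hS.fst_mem_pts (by simp [fsts])
  have hrp : ∀ f ∈ fsts R, f ∈ pts ((x, v) :: (y, u) :: R) := fun f hf =>
    hS.fst_mem_pts (by simp only [fsts, List.map_cons, List.mem_cons]; exact Or.inr (Or.inr hf))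
  have hf' : ∀ f ∈ fsts ((y, rr (-ε) v u) :: (x, v) :: R), f = v.headI - ε ∨ f = v.headI ∨
      f ∈ fsts R := by
    intro f hf
    simpa [fsts, rr_headI hnv, sub_eq_add_neg] using hf
  have hC : ∀ f ∈ fsts ((y, rr (-ε) v u) :: (x, v) :: R),
      ∀ f' ∈ fsts ((y, rr (-ε) v u) :: (x, v) :: R),
      ¬ Topo.Inter (v.headI - -ε) u.headI f f' := by
    rw [sub_neg_eq_add]
    rcases hcyc.adj with ⟨h1, h2⟩ | ⟨h1, h2⟩
    · have h3 := hε.lt hvp hup h1
      have out : ∀ f ∈ fsts ((y, rr (-ε) v u) :: (x, v) :: R),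
          ¬ (min (v.headI + ε) u.headI < f ∧ f < max (v.headI + ε) u.headI) := by
        intro f hf
        rw [min_eq_left (by linarith), max_eq_right (by linarith)]
        rintro ⟨g1, g2⟩
        rcases hf' f hf with rfl | rfl | hf
        · linarith
        · linarith
        · rcases h2 f hf with h | h <;> linarith
      exact fun f hf f' hf2 => not_inter_out (out f hf) (out f' hf2)
    · have h3 := hε.lt hup hvp h1
      have inn : ∀ f ∈ fsts ((y, rr (-ε) v u) :: (x, v) :: R),
          (min (v.headI + ε) u.headI < f ∧ f < max (v.headI + ε) u.headI) := by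
        intro f hf
        rw [min_eq_right (by linarith), max_eq_left (by linarith)]
        rcases hf' f hf with rfl | rfl | hf
        · constructor <;> linarith
        · constructor <;> linarith
        · have := h2 f hf
          constructor <;> linarith
      exact fun f hf f' hf2 => not_inter_in (inn f hf) (inn f' hf2)
  have hcore := core hS hu hv hne hε h0 hδ (S' := (y, rr (-ε) v u) :: (x, v) :: R)
    (by
      intro c a b h
      simp only [allp, List.flatMap_cons, List.mem_append] at h ⊢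
      tauto)
    (by
      intro f hf
      rcases hf' f hf with h | h | h
      · right; rw [h]; ring
      · left; rw [h]; simp [fsts]
      · left; simp only [fsts, List.map_cons, List.mem_cons]; exact Or.inr (Or.inr h))
    hC
  refine ⟨?_, ?_, ?_, fun h h' => hcore.1 h h', fun h h1 h2 => hcore.2 h h1 h2, ?_⟩
  · intro q hq
    simp only [List.mem_cons] at hq
    rcases hq with rfl | rfl | hq
    · obtain ⟨l, hl⟩ := hS.ends _ hu
      simp only at hl
      exact ⟨sh (-ε) v ++ ((sh (- -ε) v).reverse ++ l), by simp [rr, hl]⟩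
    · exact hS.ends _ hv
    · exact hS.ends q (by simp [hq])
  · intro z
    have := hS.full z
    simp only [List.map_cons, List.mem_cons] at this ⊢
    tauto
  · have hpe' : pts ((y, rr (-ε) v u) :: (x, v) :: R) = rr (-ε) v u ++ (v ++ pts R) := by
      simp [pts]
    rw [hpe']
    have hperm : (rr (-ε) v u ++ (v ++ pts R)).Perm (v ++ (rr (-ε) v u ++ pts R)) := by
      rw [← List.append_assoc, ← List.append_assoc]
      exact List.Perm.append_right _ List.perm_append_comm
    rw [hperm.nodup_iff]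
    refine nodup_rr hn ?_ (by rw [hδ]; exact h0)
    rw [hδ]
    exact hε.mono fun p hp => by rw [hpe]; exact hp
  · have := hcyc.tw h0 (fun f hf hlt => by have := hε.lt (hrp f hf) hvp hlt; linarith)
    simpa [Cyc, fsts, rr_headI hnv, sub_eq_add_neg] using this

/-- rotation of the list of arms -/
theorem IsStar.rot {p : ι × List ℝ} {S : List (ι × List ℝ)} (hS : IsStar pos (p :: S)) :
    IsStar pos (S ++ [p]) := by
  have hmem : ∀ q, q ∈ S ++ [p] ↔ q ∈ p :: S := by intro q; simp [or_comm]
  have ha : ∀ c a b, (c, a, b) ∈ allp (S ++ [p]) → (c, a, b) ∈ allp (p :: S) := by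
    intro c a b h
    obtain ⟨q, hq, h⟩ := mem_allp.1 h
    exact mem_allp.2 ⟨q, (hmem q).1 hq, h⟩
  have hf : ∀ f, f ∈ fsts (S ++ [p]) → f ∈ fsts (p :: S) := by
    intro f h
    obtain ⟨q, hq, h⟩ := List.mem_map.1 h
    exact List.mem_map.2 ⟨q, (hmem q).1 hq, h⟩
  refine ⟨fun q hq => hS.ends q ((hmem q).1 hq), ?_, ?_, fun h h' => hS.nc (ha _ _ _ h)
    (ha _ _ _ h'), fun h h1 h2 => hS.sep (ha _ _ _ h) (hf _ h1) (hf _ h2), ?_⟩
  · intro x
    have := hS.full x
    simp only [List.map_append, List.map_cons, List.mem_append, List.mem_cons, List.map_nil,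
      List.not_mem_nil, or_false] at this ⊢
    tauto
  · have := hS.nodup
    have hp : (pts (p :: S)).Perm (pts (S ++ [p])) := by
      simp only [pts, List.flatMap_cons, List.flatMap_append, List.flatMap_nil, List.append_nil]
      exact List.perm_append_comm
    exact hp.nodup_iff.1 this
  · obtain ⟨l₁, l₂, h1, h2⟩ := hS.cyc
    cases l₂ with
    | nil =>
      refine ⟨[p.2.headI], fsts S, by simp [fsts], ?_⟩
      simp only [List.nil_append, List.append_nil] at h1 h2
      rw [← h1] at h2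
      simpa [fsts] using h2
    | cons a l₂ =>
      simp only [fsts, List.map_cons, List.cons_append, List.cons.injEq] at h1
      refine ⟨l₁ ++ [a], l₂, ?_, by simpa using h2⟩
      simp only [fsts, List.map_append, List.map_cons, List.map_nil]
      rw [h1.2, h1.1]; simp

end Vale.Agent.P040.Pst
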